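import Crest.Agent.N250.St.Abel

/-!
# Row 250, block B2 (helper92): the contribution of one end to the inner integral
-/

set_option autoImplicit false
open Set Filter Topology MeasureTheory Complex

noncomputable section

namespace Crest.Agent.N250.St

/-- the weight of the Stokes argument -/
def wt (e : ℝ) (w : ℂ) : ℂ :=
  Real.exp w.re * ((chi w.im : ℂ) - (3 / 4 * w.im : ℝ) * I) * Real.exp (-hh w / 4) *
    cexp (w + (1 / 4 - e : ℝ) * cexp w)

namespace Inn

/-- the polynomial factor of the weight -/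
def cc (y : ℝ) : ℂ := (chi y : ℂ) - (3 / 4 * y : ℝ) * I

theorem wt_eq (e x y : ℝ) : wt e (x + y * I) = (Real.exp x ^ 2 : ℝ) * cc y *
    cexp ((-(Real.exp x * chi y) / 4 + (1 / 4 - e) * (Real.exp x * Real.cos y) : ℝ) +
      (y + (1 / 4 - e) * (Real.exp x * Real.sin y) : ℝ) * I) := by
  have h1 : ((x : ℂ) + y * I).re = x := by simp
  have h2 : ((x : ℂ) + y * I).im = y := by simp
  have h3 : cexp ((x : ℂ) + y * I) = Real.exp x * (Real.cos y + Real.sin y * I) := by
    rw [Complex.exp_add, Complex.exp_mul_I]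
    push_cast
    ring
  have h4 : cexp ((x : ℂ) + y * I + (1 / 4 - e : ℝ) * cexp (x + y * I)) = (Real.exp x : ℝ) *
      cexp (y * I + (1 / 4 - e : ℝ) * (Real.exp x * (Real.cos y + Real.sin y * I))) := by
    rw [h3, add_assoc, Complex.exp_add, Complex.ofReal_exp]
  rw [wt, hh, h1, h2, h4, cc, Complex.ofReal_exp (-(Real.exp x * chi y) / 4)]
  have h5 : cexp ((-(Real.exp x * chi y) / 4 + (1 / 4 - e) * (Real.exp x * Real.cos y) : ℝ) +
      (y + (1 / 4 - e) * (Real.exp x * Real.sin y) : ℝ) * I) =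
      cexp (-(Real.exp x * chi y) / 4 : ℝ) *
      cexp (y * I + (1 / 4 - e : ℝ) * (Real.exp x * (Real.cos y + Real.sin y * I))) := by
    rw [← Complex.exp_add]
    congr 1
    simp only [ofReal_add, ofReal_mul]
    ring
  rw [h5, ofReal_pow]
  ring

theorem norm_cc {y : ℝ} (hy : |y| ≤ 1) : ‖cc y‖ ≤ 1 := by
  have h1 : y ^ 2 ≤ 1 := by rw [← sq_abs]; nlinarith [abs_nonneg y]
  rw [← sq_le_one_iff₀ (norm_nonneg _), Complex.sq_norm, normSq_apply]
  simp only [cc, chi, sub_re, ofReal_re, mul_re, I_re, mul_zero, ofReal_im, I_im, mul_one,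
    sub_zero, sub_im, mul_im, add_zero, zero_sub]
  nlinarith [sq_nonneg y]

theorem cos_le {y : ℝ} (hy : |y| ≤ 1) : Real.cos y ≤ chi y - y ^ 2 / 16 := by
  have h1 : y ^ 2 ≤ 1 := by rw [← sq_abs]; nlinarith [abs_nonneg y]
  have h2 := (abs_le.1 (Real.cos_bound hy)).2
  have h3 : |y| ^ 4 = y ^ 2 * y ^ 2 := by rw [← sq_abs y]; ring
  rw [h3] at h2
  unfold chi
  nlinarith [sq_nonneg y]

theorem norm_wt {e x y : ℝ} (he : 0 ≤ e) (hy : |y| ≤ 1) : ‖wt e (x + y * I)‖ ≤
    Real.exp x ^ 2 * Real.exp (-e * Real.exp x / 2) * Real.exp (-(Real.exp x * y ^ 2) / 64) := by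
  have h1 : y ^ 2 ≤ 1 := by rw [← sq_abs]; nlinarith [abs_nonneg y]
  have hρ := Real.exp_pos x
  rw [wt_eq, norm_mul, norm_mul, Complex.norm_exp, Complex.norm_real,
    Real.norm_of_nonneg (by positivity), mul_assoc, mul_assoc, ← Real.exp_add]
  refine mul_le_mul_of_nonneg_left ?_ (by positivity)
  refine (mul_le_of_le_one_left (Real.exp_pos _).le (norm_cc hy)).trans (Real.exp_le_exp.2 ?_)
  simp only [add_re, ofReal_re, mul_re, I_re, mul_zero, ofReal_im, I_im, mul_one, sub_zero,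
    add_zero]
  have h2 := mul_le_mul_of_nonneg_left (cos_le hy) hρ.le
  have h3 : 1 / 2 ≤ Real.cos y := by linarith [Real.one_sub_sq_div_two_le_cos (x := y)]
  have h4 := mul_le_mul_of_nonneg_left h3 (mul_nonneg he hρ.le)
  nlinarith

theorem cont_wt (e : ℝ) : Continuous (wt e) := by
  unfold wt hh chi
  fun_prop

/-- the normalised weight at a tied end -/
def AA (γ s : ℝ) (p : ℝ × ℝ) : ℂ :=
  cc ((s - γ * Real.exp (p.1 / 2)) / Real.exp p.1) *
    cexp ((-(Real.exp p.1 * chi ((s - γ * Real.exp (p.1 / 2)) / Real.exp p.1)) / 4 +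
      (1 / 4 - p.2) * (Real.exp p.1 * Real.cos ((s - γ * Real.exp (p.1 / 2)) / Real.exp p.1)) +
        p.2 * Real.exp p.1 : ℝ) +
      ((s - γ * Real.exp (p.1 / 2)) / Real.exp p.1 + (1 / 4 - p.2) *
        (Real.exp p.1 * Real.sin ((s - γ * Real.exp (p.1 / 2)) / Real.exp p.1)) +
          (1 / 4 - p.2) * γ * Real.exp (p.1 / 2) : ℝ) * I)

theorem lim_t (γ s : ℝ) :
    Tendsto (fun x => (s - γ * Real.exp (x / 2)) / Real.exp (x / 2)) atTop (𝓝 (-γ)) := by
  have h1 : Tendsto (fun x : ℝ => Real.exp (x / 2)) atTop atTop :=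
    Real.tendsto_exp_atTop.comp (tendsto_id.atTop_div_const two_pos)
  have h2 := (tendsto_const_nhds (x := s).div_atTop h1).sub_const γ
  rw [zero_sub] at h2
  refine h2.congr fun x => ?_
  have := Real.exp_pos (x / 2)
  field_simp

theorem exp_half (x : ℝ) : Real.exp x = Real.exp (x / 2) ^ 2 := by
  rw [← Real.exp_nat_mul]
  congr 1
  push_cast
  ring

theorem lim_y (γ s : ℝ) :
    Tendsto (fun x => (s - γ * Real.exp (x / 2)) / Real.exp x) atTop (𝓝 0) := by
  have h1 : Tendsto (fun x : ℝ => Real.exp (x / 2)) atTop atTop :=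
    Real.tendsto_exp_atTop.comp (tendsto_id.atTop_div_const two_pos)
  refine ((lim_t γ s).div_atTop h1).congr fun x => ?_
  rw [exp_half x]
  have := Real.exp_pos (x / 2)
  field_simp

theorem lim_q (γ s : ℝ) : Tendsto (fun x =>
    Real.exp x * ((s - γ * Real.exp (x / 2)) / Real.exp x) ^ 2) atTop (𝓝 (γ ^ 2)) := by
  have := (lim_t γ s).pow 2
  rw [neg_sq] at this
  refine this.congr fun x => ?_
  rw [exp_half x]
  have := Real.exp_pos (x / 2)
  field_simp

theorem lim_AA (γ s : ℝ) : Tendsto (AA γ s) (atTop ×ˢ 𝓝[>] 0)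
    (𝓝 ((Real.exp (-γ ^ 2 / 32) : ℝ) * cexp ((s / 4 : ℝ) * I))) := by
  set y : ℝ → ℝ := fun x => (s - γ * Real.exp (x / 2)) / Real.exp x with hy
  have ly : Tendsto y atTop (𝓝 0) := lim_y γ s
  have lq : Tendsto (fun x => Real.exp x * y x ^ 2) atTop (𝓝 (γ ^ 2)) := lim_q γ s
  have ev : ∀ᶠ x in atTop, |y x| ≤ 1 := by
    have := ly.abs
    rw [abs_zero] at this
    exact this.eventually (ge_mem_nhds one_pos)
  have la : Tendsto (fun x => Real.exp x * (Real.cos (y x) - (1 - y x ^ 2 / 2))) atTop (𝓝 0) := by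
    have t1 := lq.mul (ly.pow 2)
    simp only [ne_eq, OfNat.ofNat_ne_zero, not_false_eq_true, zero_pow, mul_zero] at t1
    refine squeeze_zero_norm' ?_ t1
    filter_upwards [ev] with x hx
    have h2 := Real.cos_bound hx
    have h3 : |y x| ^ 4 = y x ^ 2 * y x ^ 2 := by rw [← sq_abs (y x)]; ring
    rw [norm_mul, Real.norm_of_nonneg (Real.exp_pos x).le, mul_assoc, Real.norm_eq_abs]
    refine mul_le_mul_of_nonneg_left ?_ (Real.exp_pos x).le
    rw [h3] at h2
    nlinarith [mul_nonneg (sq_nonneg (y x)) (sq_nonneg (y x))]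
  have lb : Tendsto (fun x => Real.exp x * (Real.sin (y x) - y x)) atTop (𝓝 0) := by
    have t1 := lq.mul ly.abs
    simp only [abs_zero, mul_zero] at t1
    refine squeeze_zero_norm' ?_ t1
    filter_upwards [ev] with x hx
    have h2 := Real.sin_bound hx
    have h0 := abs_nonneg (y x)
    have h3 : |y x ^ 3 / 6| = |y x| ^ 3 / 6 := by rw [abs_div, abs_pow]; norm_num
    have h4 := abs_sub_le (Real.sin (y x)) (y x - y x ^ 3 / 6) (y x)
    rw [show y x - y x ^ 3 / 6 - y x = -(y x ^ 3 / 6) by ring, abs_neg, h3] at h4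
    rw [norm_mul, Real.norm_of_nonneg (Real.exp_pos x).le, mul_assoc, Real.norm_eq_abs,
      ← sq_abs (y x)]
    refine mul_le_mul_of_nonneg_left ?_ (Real.exp_pos x).le
    have h5 : |y x| ^ 4 ≤ |y x| ^ 3 := pow_le_pow_of_le_one h0 hx (by norm_num)
    have h6 : 0 ≤ |y x| ^ 3 := by positivity
    nlinarith
  have f1 : Tendsto (fun p : ℝ × ℝ => p.1) (atTop ×ˢ 𝓝[>] 0) atTop := tendsto_fst
  have f2 : Tendsto (fun p : ℝ × ℝ => p.2) (atTop ×ˢ 𝓝[>] (0 : ℝ)) (𝓝 0) :=
    tendsto_snd.mono_right nhdsWithin_le_nhds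
  have r1 : Tendsto (fun p : ℝ × ℝ => -(Real.exp p.1 * chi (y p.1)) / 4 +
      (1 / 4 - p.2) * (Real.exp p.1 * Real.cos (y p.1)) + p.2 * Real.exp p.1) (atTop ×ˢ 𝓝[>] 0)
      (𝓝 (-γ ^ 2 / 32)) := by
    have t := (((tendsto_const_nhds (x := (1 / 4 : ℝ))).sub f2).mul (la.comp f1)).add
      ((f2.div_const 2).sub_const (1 / 32) |>.mul (lq.comp f1))
    refine (t.congr fun p => ?_).trans (by ring_nf; rfl)
    simp only [Function.comp, chi]
    ring
  have r2 : Tendsto (fun p : ℝ × ℝ => y p.1 + (1 / 4 - p.2) * (Real.exp p.1 * Real.sin (y p.1)) +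
      (1 / 4 - p.2) * γ * Real.exp (p.1 / 2)) (atTop ×ˢ 𝓝[>] 0) (𝓝 (s / 4)) := by
    have t := (ly.comp f1).add (((tendsto_const_nhds (x := (1 / 4 : ℝ))).sub f2).mul
      ((lb.comp f1).add_const s))
    refine (t.congr fun p => ?_).trans (by ring_nf; rfl)
    have := Real.exp_pos p.1
    have e : Real.exp p.1 * y p.1 = s - γ * Real.exp (p.1 / 2) := by
      simp only [hy]
      field_simp
    simp only [Function.comp]
    linear_combination (-(1 / 4 - p.2)) * e
  have r3 : Tendsto (fun p : ℝ × ℝ => cc (y p.1)) (atTop ×ˢ 𝓝[>] 0) (𝓝 1) := by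
    have hc : Continuous cc := by
      unfold cc chi
      fun_prop
    have := (hc.tendsto 0).comp (ly.comp f1)
    rwa [show cc 0 = 1 by simp [cc, chi]] at this
  have r4 := r3.mul (((continuous_ofReal.tendsto _).comp r1).add
    (((continuous_ofReal.tendsto _).comp r2).mul_const I)).cexp
  rw [one_mul, Complex.exp_add, ← Complex.ofReal_exp] at r4
  exact r4

theorem wt_AA (γ s : ℝ) (p : ℝ × ℝ) :
    wt p.2 (p.1 + ((s - γ * Real.exp (p.1 / 2)) / Real.exp p.1 : ℝ) * I) =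
      (Real.exp p.1 ^ 2 * Real.exp (-p.2 * Real.exp p.1) : ℝ) *
        cexp (-((1 / 4 - p.2) * γ * Real.exp (p.1 / 2) : ℝ) * I) * AA γ s p := by
  rw [wt_eq, AA, ofReal_mul, Complex.ofReal_exp (-p.2 * Real.exp p.1)]
  generalize (s - γ * Real.exp (p.1 / 2)) / Real.exp p.1 = y
  have h : cexp ((-(Real.exp p.1 * chi y) / 4 + (1 / 4 - p.2) * (Real.exp p.1 * Real.cos y) : ℝ) +
      (y + (1 / 4 - p.2) * (Real.exp p.1 * Real.sin y) : ℝ) * I) =
      cexp (-p.2 * Real.exp p.1 : ℝ) * cexp (-((1 / 4 - p.2) * γ * Real.exp (p.1 / 2) : ℝ) * I) *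
      cexp ((-(Real.exp p.1 * chi y) / 4 + (1 / 4 - p.2) * (Real.exp p.1 * Real.cos y) +
        p.2 * Real.exp p.1 : ℝ) + (y + (1 / 4 - p.2) * (Real.exp p.1 * Real.sin y) +
          (1 / 4 - p.2) * γ * Real.exp (p.1 / 2) : ℝ) * I) := by
    rw [← Complex.exp_add, ← Complex.exp_add]
    congr 1
    simp only [ofReal_add, ofReal_mul, ofReal_neg]
    ring
  rw [h]
  ring

theorem mem_QQ {σ : ℝ → ℝ} {x₀ θ x s : ℝ} (hx : x₀ ≤ x) : pt σ x s ∈ QQ x₀ θ ↔
    s ∈ Icc (-θ * Real.exp x - σ x) (θ * Real.exp x - σ x) := by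
  have hρ := Real.exp_pos x
  have h1 : (pt σ x s).re = x := by
    simp only [pt, add_re, ofReal_re, mul_re, I_re, mul_zero, ofReal_im, I_im, mul_one, sub_zero,
      add_zero]
  have h2 : (pt σ x s).im = (s + σ x) / Real.exp x := by
    simp only [pt, add_im, ofReal_re, mul_im, I_re, mul_zero, ofReal_im, I_im, mul_one, zero_add,
      add_zero]
  simp only [QQ, mem_ofPred_eq, h1, h2, hx, true_and, abs_le, le_div_iff₀ hρ, div_le_iff₀ hρ,
    mem_Icc]
  constructor <;> rintro ⟨a, b⟩ <;> constructor <;> linarith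

theorem change (f : ℝ → ℂ) (x c : ℝ) {θ : ℝ} (h0 : 0 < θ) : ∫ y in (-θ)..θ, f y =
    (Real.exp x)⁻¹ • ∫ s, (Icc (-θ * Real.exp x - c) (θ * Real.exp x - c)).indicator
      (fun s => f ((s + c) / Real.exp x)) s := by
  have hρ := Real.exp_pos x
  rw [integral_indicator measurableSet_Icc, integral_Icc_eq_integral_Ioc,
    ← intervalIntegral.integral_of_le (by nlinarith),
    intervalIntegral.integral_comp_add_right (fun u => f (u / Real.exp x)) c,
    intervalIntegral.integral_comp_div _ hρ.ne', smul_smul, inv_mul_cancel₀ hρ.ne', one_smul]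
  congr 1 <;> field_simp <;> ring

end Inn

open Inn in
theorem Prof.inner {Φ : ℂ → ℂ} {x₀ θ γ : ℝ} {φ : ℝ → ℂ} {M : ℝ → ℝ} (h : Prof Φ x₀ θ γ φ M)
    (h0 : 0 < θ) (h1 : θ ≤ 1) {η : ℝ} (hη : 0 < η) :
    ∀ᶠ p : ℝ × ℝ in atTop ×ˢ 𝓝[>] 0,
      ‖(∫ y in (-θ)..θ, wt p.2 (p.1 + y * I) * Φ (p.1 + y * I)) -
        (Real.exp p.1 * Real.exp (-p.2 * Real.exp p.1) * Real.exp (-γ ^ 2 / 32) : ℝ) *
          cexp (-((1 / 4 - p.2) * γ * Real.exp (p.1 / 2) : ℝ) * I) *
          ∫ s : ℝ, cexp ((s / 4 : ℝ) * I) * φ s‖ ≤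
      Real.exp p.1 * (Real.exp (-p.2 * Real.exp p.1) * (∫ s, M s) +
        η * Real.exp (-p.2 * Real.exp p.1 / 2)) := by
  obtain ⟨σ, Dom, C, κ, hκ, hDom, hcase, hbd, hlim⟩ := h.ex
  set D : ℝ × ℝ → Set ℝ := fun p =>
    Icc (-θ * Real.exp p.1 - σ p.1) (θ * Real.exp p.1 - σ p.1) with hD
  set F : ℝ × ℝ → ℝ → ℂ := fun p s => wt p.2 (pt σ p.1 s) * Φ (pt σ p.1 s) with hF
  set a : ℝ × ℝ → ℝ := fun p => Real.exp (-p.2 * Real.exp p.1 / 2) with ha
  set ph : ℝ × ℝ → ℂ := fun p => cexp (-((1 / 4 - p.2) * γ * Real.exp (p.1 / 2) : ℝ) * I) with hph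
  set Er : ℝ × ℝ → ℝ → ℂ := fun p s => (Real.exp p.1 ^ 2 * a p)⁻¹ • (D p).indicator (F p) s -
    (a p * Real.exp (-γ ^ 2 / 32) : ℝ) * ph p * (cexp ((s / 4 : ℝ) * I) * φ s) with hEr
  set g : ℝ → ℝ → ℝ := fun x s => |C| * Real.exp (-(1 / 2 + κ) * x) *
    Real.exp (-(64 * Real.exp x)⁻¹ * (s + σ x) ^ 2) with hg
  set P : ℝ × ℝ → ℝ → ℝ := fun p s => max (‖Er p s‖ - a p * M s - g p.1 s) 0 with hP
  have ha0 : ∀ p, 0 < a p := fun p => Real.exp_pos _
  have ha1 : ∀ p : ℝ × ℝ, 0 < p.2 → a p ≤ 1 := fun p hp => by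
    refine Real.exp_le_one_iff.2 ?_
    have := mul_pos hp (Real.exp_pos p.1)
    linarith
  have haa : ∀ p : ℝ × ℝ, Real.exp (-p.2 * Real.exp p.1) = a p * a p := fun p => by
    simp only [ha]
    rw [← Real.exp_add]
    congr 1
    ring
  have hph1 : ∀ p, ‖ph p‖ = 1 := fun p => by
    simp only [hph]
    rw [← ofReal_neg, Complex.norm_exp_ofReal_mul_I]
  have hγ : Real.exp (-γ ^ 2 / 32) ≤ 1 := Real.exp_le_one_iff.2 (by nlinarith [sq_nonneg γ])
  have hg0 : ∀ x s, 0 ≤ g x s := fun x s => by positivity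
  have hev : ∀ᶠ p : ℝ × ℝ in atTop ×ˢ 𝓝[>] 0, x₀ ≤ p.1 ∧ 0 < p.2 :=
    (eventually_ge_atTop x₀).prod_mk self_mem_nhdsWithin
  have iφ : Integrable fun s : ℝ => cexp ((s / 4 : ℝ) * I) * φ s :=
    h.φ_int.bdd_mul (c := 1) (by fun_prop) (Eventually.of_forall fun s => by
      rw [Complex.norm_exp_ofReal_mul_I])
  have iF : ∀ p : ℝ × ℝ, x₀ ≤ p.1 → Integrable ((D p).indicator (F p)) := fun p hp => by
    rw [integrable_indicator_iff measurableSet_Icc]
    have hc : Continuous (pt σ p.1) := by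
      unfold pt
      fun_prop
    refine ContinuousOn.integrableOn_Icc (((cont_wt p.2).comp hc).continuousOn.mul
      ((h.cont p.1 hp).comp (f := fun s => (s + σ p.1) / Real.exp p.1) (by fun_prop)
        fun s hs => ?_))
    have := ((mem_QQ hp).2 hs).2
    simp only [pt, add_im, ofReal_re, mul_im, I_re, mul_zero, ofReal_im, I_im, mul_one,
      zero_add, add_zero] at this
    exact abs_le.1 this
  have iF' : ∀ p : ℝ × ℝ, x₀ ≤ p.1 →
      Integrable fun s => (Real.exp p.1 ^ 2 * a p)⁻¹ • (D p).indicator (F p) s :=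
    fun p hp => (iF p hp).smul (Real.exp p.1 ^ 2 * a p)⁻¹
  have iE : ∀ p : ℝ × ℝ, x₀ ≤ p.1 → Integrable (Er p) := fun p hp =>
    (iF' p hp).sub (iφ.const_mul ((a p * Real.exp (-γ ^ 2 / 32) : ℝ) * ph p))
  have ig : ∀ x, Integrable (g x) := fun x =>
    ((integrable_exp_neg_mul_sq (inv_pos.2 (by positivity : 0 < 64 * Real.exp x))).comp_add_right
      (σ x)).const_mul _
  have iP : ∀ p : ℝ × ℝ, x₀ ≤ p.1 → Integrable (P p) := fun p hp =>
    (((iE p hp).norm.sub (h.M_int.const_mul _)).sub (ig p.1)).pos_part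
  have b1 : ∀ p : ℝ × ℝ, x₀ ≤ p.1 → 0 < p.2 → ∀ s, s ∈ D p →
      ‖(Real.exp p.1 ^ 2 * a p)⁻¹ • (D p).indicator (F p) s‖ ≤
        Real.exp (-(64 * Real.exp p.1)⁻¹ * (s + σ p.1) ^ 2) * ‖Φ (pt σ p.1 s)‖ := by
    intro p hp he s hs
    have hρ := Real.exp_pos p.1
    have hy : |(s + σ p.1) / Real.exp p.1| ≤ 1 := by
      have := ((mem_QQ hp).2 hs).2
      simp only [pt, add_im, ofReal_re, mul_im, I_re, mul_zero, ofReal_im, I_im, mul_one,
        zero_add, add_zero] at this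
      exact this.trans h1
    have hw := norm_wt (x := p.1) he.le hy
    have hpos : 0 < Real.exp p.1 ^ 2 * a p := mul_pos (by positivity) (ha0 p)
    rw [indicator_of_mem hs, norm_smul, norm_inv, Real.norm_of_nonneg hpos.le, norm_mul,
      ← mul_assoc]
    refine mul_le_mul_of_nonneg_right ?_ (norm_nonneg _)
    rw [inv_mul_le_iff₀ hpos]
    refine hw.trans (le_of_eq ?_)
    congr 2
    field_simp
  have b2 : ∀ p : ℝ × ℝ, 0 < p.2 → ∀ s : ℝ,
      ‖(a p * Real.exp (-γ ^ 2 / 32) : ℝ) * ph p * (cexp ((s / 4 : ℝ) * I) * φ s)‖ ≤ ‖φ s‖ := by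
    intro p he s
    rw [norm_mul, norm_mul, norm_mul, hph1, Complex.norm_exp_ofReal_mul_I, one_mul, mul_one,
      Complex.norm_real, Real.norm_of_nonneg (mul_pos (ha0 p) (Real.exp_pos _)).le]
    exact mul_le_of_le_one_left (norm_nonneg _)
      (mul_le_one₀ (ha1 p he) (Real.exp_pos _).le hγ)
  have hG1 : ∀ x s, Real.exp (-(64 * Real.exp x)⁻¹ * (s + σ x) ^ 2) ≤ 1 := fun x s =>
    Real.exp_le_one_iff.2 (by
      have : 0 ≤ (64 * Real.exp x)⁻¹ * (s + σ x) ^ 2 := by positivity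
      linarith)
  have tP : Tendsto (fun p => ∫ s, P p s) (atTop ×ˢ 𝓝[>] 0) (𝓝 (∫ _ : ℝ, (0 : ℝ))) := by
    refine tendsto_integral_filter_of_dominated_convergence (fun s => |Dom s| + ‖φ s‖)
      (hev.mono fun p hp => (iP p hp.1).aestronglyMeasurable)
      (hev.mono fun p hp => Eventually.of_forall fun s => ?_) (hDom.abs.add h.φ_int.norm)
      (Eventually.of_forall fun s => ?_)
    · rw [Real.norm_of_nonneg (le_max_right _ _)]
      refine max_le ?_ (by positivity)
      have h2 := norm_sub_le ((Real.exp p.1 ^ 2 * a p)⁻¹ • (D p).indicator (F p) s)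
        ((a p * Real.exp (-γ ^ 2 / 32) : ℝ) * ph p * (cexp ((s / 4 : ℝ) * I) * φ s))
      have h3 := b2 p hp.2 s
      have h4 := mul_nonneg (ha0 p).le (h.M_nonneg s)
      have h5 : ‖(Real.exp p.1 ^ 2 * a p)⁻¹ • (D p).indicator (F p) s‖ ≤ |Dom s| + g p.1 s := by
        by_cases hs : s ∈ D p
        · refine (b1 p hp.1 hp.2 s hs).trans ?_
          have h6 : ‖Φ (pt σ p.1 s)‖ ≤ |Dom s| + |C| * Real.exp (-(1 / 2 + κ) * p.1) :=
            (hbd p.1 s ((mem_QQ hp.1).2 hs)).trans (add_le_add (le_abs_self _)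
              (mul_le_mul_of_nonneg_right (le_abs_self _) (Real.exp_pos _).le))
          refine (mul_le_mul_of_nonneg_left h6 (Real.exp_pos _).le).trans ?_
          rw [mul_add]
          exact add_le_add (mul_le_of_le_one_left (abs_nonneg _) (hG1 _ _))
            (le_of_eq (mul_comm _ _))
        · rw [indicator_of_notMem hs, smul_zero, norm_zero]
          exact add_nonneg (abs_nonneg _) (hg0 _ _)
      simp only [hEr]
      linarith
    · refine Metric.tendsto_nhds.2 fun e he => ?_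
      suffices hh : ∀ᶠ p : ℝ × ℝ in atTop ×ˢ 𝓝[>] 0, ‖Er p s‖ ≤ a p * M s + e / 2 by
        filter_upwards [hh] with p hp
        rw [dist_zero_right, Real.norm_of_nonneg (le_max_right _ _)]
        exact max_lt (by linarith [hg0 p.1 s]) he
      rcases hcase with hc | hc
      · filter_upwards [hev, tendsto_fst.eventually (hlim s (e / 2) (half_pos he))] with p hp hq
        simp only [hEr, (hc s).1, (hc s).2, mul_zero, sub_zero, zero_add] at hq ⊢
        by_cases hs : s ∈ D p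
        · exact (b1 p hp.1 hp.2 s hs).trans ((mul_le_of_le_one_left (norm_nonneg _)
            (hG1 _ _)).trans (hq ((mem_QQ hp.1).2 hs)))
        · rw [indicator_of_notMem hs, smul_zero, norm_zero]
          positivity
      · have hy : ∀ x, (s + σ x) / Real.exp x = (s - γ * Real.exp (x / 2)) / Real.exp x :=
          fun x => by rw [hc x]; ring
        have e1 : ∀ᶠ x in atTop, |(s - γ * Real.exp (x / 2)) / Real.exp x| ≤ θ := by
          have := (lim_y γ s).abs
          rw [abs_zero] at this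
          exact this.eventually (ge_mem_nhds h0)
        have e2 := ((tendsto_iff_norm_sub_tendsto_zero.1 (lim_AA γ s)).mul_const
          (‖φ s‖ + M s + e / 4))
        rw [zero_mul] at e2
        filter_upwards [hev, tendsto_fst.eventually (hlim s (e / 4) (by positivity)),
          tendsto_fst.eventually e1, e2.eventually (ge_mem_nhds (show 0 < e / 4 by positivity))]
          with p hp hq hθ hA
        have hQ : pt σ p.1 s ∈ QQ x₀ θ := by
          refine ⟨by
            simp only [pt, add_re, ofReal_re, mul_re, I_re, mul_zero, ofReal_im, I_im, mul_one,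
              sub_zero, add_zero]
            exact hp.1, ?_⟩
          simp only [pt, add_im, ofReal_re, mul_im, I_re, mul_zero, ofReal_im, I_im, mul_one,
            zero_add, add_zero]
          rwa [hy]
        have hq := hq hQ
        have hρ := Real.exp_pos p.1
        have e3 : Er p s = (a p : ℝ) * ph p * (AA γ s p * Φ (pt σ p.1 s) -
            (Real.exp (-γ ^ 2 / 32) : ℝ) * cexp ((s / 4 : ℝ) * I) * φ s) := by
          have e4 : wt p.2 (pt σ p.1 s) = (Real.exp p.1 ^ 2 * (a p * a p) : ℝ) * ph p * AA γ s p := by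
            rw [pt, hy, wt_AA, haa]
          have hne : ((Real.exp p.1 ^ 2 * a p : ℝ) : ℂ) ≠ 0 :=
            ofReal_ne_zero.2 (mul_pos (by positivity) (ha0 p)).ne'
          simp only [hEr, hF]
          rw [indicator_of_mem ((mem_QQ hp.1).1 hQ), e4, real_smul, ofReal_inv, ← mul_assoc (_ ^ 2),
            ofReal_mul (_ * _) (a p), ofReal_mul (a p)]
          field_simp
        set A₀ : ℂ := (Real.exp (-γ ^ 2 / 32) : ℝ) * cexp ((s / 4 : ℝ) * I) with hA₀
        have n0 : ‖A₀‖ ≤ 1 := by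
          rw [hA₀, norm_mul, Complex.norm_exp_ofReal_mul_I, mul_one, Complex.norm_real,
            Real.norm_of_nonneg (Real.exp_pos _).le]
          exact hγ
        have n1 : ‖Φ (pt σ p.1 s)‖ ≤ ‖φ s‖ + M s + e / 4 := by
          have := norm_le_insert' (Φ (pt σ p.1 s)) (φ s)
          linarith
        have n2 : ‖AA γ s p * Φ (pt σ p.1 s) - A₀ * φ s‖ ≤ M s + e / 2 := by
          rw [show AA γ s p * Φ (pt σ p.1 s) - A₀ * φ s = (AA γ s p - A₀) * Φ (pt σ p.1 s) +
            A₀ * (Φ (pt σ p.1 s) - φ s) by ring]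
          refine (norm_add_le _ _).trans ?_
          rw [norm_mul, norm_mul]
          have c1 := mul_le_mul_of_nonneg_left n1 (norm_nonneg (AA γ s p - A₀))
          have c2 := mul_le_of_le_one_left (norm_nonneg (Φ (pt σ p.1 s) - φ s)) n0
          linarith
        rw [e3, norm_mul, norm_mul, hph1, mul_one, Complex.norm_real,
          Real.norm_of_nonneg (ha0 p).le]
        refine (mul_le_mul_of_nonneg_left n2 (ha0 p).le).trans ?_
        rw [mul_add]
        exact add_le_add le_rfl (mul_le_of_le_one_left (by positivity) (ha1 p hp.2))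
  rw [integral_zero] at tP
  have tg : Tendsto (fun x => ∫ s, g x s) atTop (𝓝 0) := by
    have t1 : Tendsto (fun x => |C| * √(64 * Real.pi) * Real.exp (-(κ * x))) atTop
        (𝓝 (|C| * √(64 * Real.pi) * 0)) :=
      (Real.tendsto_exp_neg_atTop_nhds_zero.comp (tendsto_id.const_mul_atTop hκ)).const_mul _
    rw [mul_zero] at t1
    refine t1.congr fun x => ?_
    simp only [hg]
    rw [integral_const_mul,
      integral_add_right_eq_self (fun u : ℝ => Real.exp (-(64 * Real.exp x)⁻¹ * u ^ 2)) (σ x),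
      integral_gaussian, div_inv_eq_mul, show Real.pi * (64 * Real.exp x) =
        64 * Real.pi * Real.exp (x / 2) ^ 2 by rw [exp_half x]; ring,
      Real.sqrt_mul (x := 64 * Real.pi) (by positivity), Real.sqrt_sq (Real.exp_pos _).le,
      show -(κ * x) = -(1 / 2 + κ) * x + x / 2 by ring, Real.exp_add]
    ring
  filter_upwards [hev, tP.eventually (ge_mem_nhds (half_pos hη)),
    tendsto_fst.eventually (tg.eventually (ge_mem_nhds (half_pos hη)))] with p hp hPp hgp
  have hρ := Real.exp_pos p.1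
  have e1 : (∫ y in (-θ)..θ, wt p.2 (p.1 + y * I) * Φ (p.1 + y * I)) -
      (Real.exp p.1 * Real.exp (-p.2 * Real.exp p.1) * Real.exp (-γ ^ 2 / 32) : ℝ) * ph p *
        ∫ s : ℝ, cexp ((s / 4 : ℝ) * I) * φ s = (Real.exp p.1 * a p : ℝ) * ∫ s, Er p s := by
    have hne : ((Real.exp p.1 : ℝ) : ℂ) ≠ 0 := ofReal_ne_zero.2 hρ.ne'
    have hne' : ((a p : ℝ) : ℂ) ≠ 0 := ofReal_ne_zero.2 (ha0 p).ne'
    rw [change (fun y : ℝ => wt p.2 (p.1 + y * I) * Φ (p.1 + y * I)) p.1 (σ p.1) h0, haa]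
    simp only [hEr]
    rw [integral_sub (iF' p hp.1) (iφ.const_mul _), integral_smul, integral_const_mul]
    change (Real.exp p.1)⁻¹ • (∫ s, (D p).indicator (F p) s) - _ = _
    generalize (∫ s : ℝ, cexp ((s / 4 : ℝ) * I) * φ s) = J
    simp only [real_smul, ofReal_inv, ofReal_mul, ofReal_pow]
    field_simp
  have e2 : ‖∫ s, Er p s‖ ≤ a p * (∫ s, M s) + η := by
    refine (norm_integral_le_of_norm_le (((iP p hp.1).add (h.M_int.const_mul (a p))).add
      (ig p.1)) (Eventually.of_forall fun s => ?_)).trans ?_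
    · have := le_max_left (‖Er p s‖ - a p * M s - g p.1 s) 0
      simp only [hP, Pi.add_apply]
      linarith
    · rw [integral_add' ((iP p hp.1).add (h.M_int.const_mul (a p))) (ig p.1),
        integral_add' (iP p hp.1) (h.M_int.const_mul (a p)), integral_const_mul]
      linarith
  rw [e1, norm_mul, Complex.norm_real, Real.norm_of_nonneg (mul_pos hρ (ha0 p)).le, haa]
  calc Real.exp p.1 * a p * ‖∫ s, Er p s‖ ≤ Real.exp p.1 * a p * (a p * (∫ s, M s) + η) :=
        mul_le_mul_of_nonneg_left e2 (mul_pos hρ (ha0 p)).le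
    _ = _ := by ring

theorem st2Stmt : ST2Stmt :=
  st2_of fun _ _ _ _ _ _ h h0 h1 _ he => h.inner h0 h1 he

end Crest.Agent.N250.St

end
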