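import Mathlib

/-!
# Row 250, block B2 (helper47): the one variable package of the real-`x` Stokes argument.

`w = x + i y`, `b = e^w` is the exponent of the most dangerous end, all ends are cut at the level
`T(Y) = hh w`.
-/

set_option autoImplicit false
open Set Filter Topology MeasureTheory

noncomputable section

namespace Crest.Agent.N250.St

def chi (y : ℝ) : ℝ := 1 - 3 * y ^ 2 / 8

/-- the level of the cut -/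
def hh (w : ℂ) : ℝ := Real.exp w.re * chi w.im

/-- closed half strip -/
def QQ (x₀ θ : ℝ) : Set ℂ := {w | x₀ ≤ w.re ∧ |w.im| ≤ θ}

/-- the point with `re w = x`, `e^x im w = s + σ x` -/
def pt (σ : ℝ → ℝ) (x s : ℝ) : ℂ := x + ((s + σ x) / Real.exp x : ℝ) * Complex.I

/-- the contribution `Φ` of one end has the profile `φ` up to `M`, centred at `-γ √ρ`
(`φ = 0`, `M = 0`: an end that does not contribute; any centre) -/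
structure Prof (Φ : ℂ → ℂ) (x₀ θ γ : ℝ) (φ : ℝ → ℂ) (M : ℝ → ℝ) : Prop where
  cont : ∀ x : ℝ, x₀ ≤ x → ContinuousOn (fun y : ℝ => Φ (x + y * Complex.I)) (Icc (-θ) θ)
  φ_int : Integrable φ
  M_int : Integrable M
  M_nonneg : ∀ s, 0 ≤ M s
  ex : ∃ (σ Dom : ℝ → ℝ) (C κ : ℝ), 0 < κ ∧ Integrable Dom ∧
    ((∀ s, φ s = 0 ∧ M s = 0) ∨ ∀ x, σ x = -γ * Real.exp (x / 2)) ∧
    (∀ x s, pt σ x s ∈ QQ x₀ θ → ‖Φ (pt σ x s)‖ ≤ Dom s + C * Real.exp (-(1 / 2 + κ) * x)) ∧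
    ∀ s e, 0 < e → ∀ᶠ x in atTop, pt σ x s ∈ QQ x₀ θ → ‖Φ (pt σ x s) - φ s‖ ≤ M s + e

/-- ONE VARIABLE PACKAGE: `G w = f₀ - f_{Y(hh w)} (z w)` -/
structure OV2 {D : Type} [Fintype D] (G : ℂ → ℂ) (G' : ℂ → ℂ →L[ℝ] ℂ) (x₀ θ : ℝ)
    (Φ : D → ℂ → ℂ) (γ : D → ℝ) (φ : D → ℝ → ℂ) (M : D → ℝ → ℝ) : Prop where
  θ_pos : 0 < θ
  θ_le : θ ≤ 1
  der : ∀ w ∈ QQ x₀ θ, HasFDerivAt G (G' w) w
  dbar : ∀ w ∈ QQ x₀ θ, G' w 1 + Complex.I * G' w Complex.I =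
    Real.exp w.re * ((chi w.im : ℂ) - (3 / 4 * w.im : ℝ) * Complex.I) * Real.exp (-hh w / 4) *
      ∑ j, Φ j w
  cont : ContinuousOn (fun w => ∑ j, Φ j w) (QQ x₀ θ)
  rate : ∀ ε, 0 < ε → ∃ C, ∀ w ∈ QQ x₀ θ, ‖G w‖ ≤ C * Real.exp (-(1 / 4 - ε) * hh w)
  prof : ∀ j, Prof (Φ j) x₀ θ (γ j) (φ j) (M j)
  pos : ∑ j, ∫ s, M j s < ∑ j ∈ Finset.univ.filter fun j => γ j = 0,
    (∫ s : ℝ, Complex.exp ((s / 4 : ℝ) * Complex.I) * φ j s).re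

/-- (ST), real-`x` form -/
def ST2Stmt : Prop :=
  ∀ (D : Type) [Fintype D] (G : ℂ → ℂ) (G' : ℂ → ℂ →L[ℝ] ℂ) (x₀ θ : ℝ) (Φ : D → ℂ → ℂ)
    (γ : D → ℝ) (φ : D → ℝ → ℂ) (M : D → ℝ → ℝ), OV2 G G' x₀ θ Φ γ φ M → False

end Crest.Agent.N250.St

end
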