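import Crest.Agent.N250.Ov.Cont
import Crest.Agent.N250.B2.Fam
import Crest.Agent.N250.Ti.Adm

/-!
# Row 250, block B2 (helper66): the profiles of the ends along the curve (`Ov.Prf`)
-/

set_option autoImplicit false
open Set Filter Topology MeasureTheory

noncomputable section

namespace Crest.Agent.N250.St.PF
open B2 Ov Ti

theorem inv_sq_le (s : ℝ) : ((1 + |s|) ^ 2)⁻¹ ≤ (1 + s ^ 2)⁻¹ := by
  have := abs_nonneg s
  refine inv_anti₀ (by positivity) ?_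
  nlinarith [sq_abs s]

theorem hh_rpow_le {w : ℂ} (hw : |w.im| ≤ 1) {g : ℝ} (hg : 0 < g) :
    hh w ^ (-(1 / 2 + g)) ≤ (1 / 2 : ℝ) ^ (-(1 / 2 + g)) * Real.exp (-(1 / 2 + g) * w.re) := by
  have h1 := Ov.le_hh hw
  have h2 := Real.exp_pos w.re
  refine (Real.rpow_le_rpow_of_nonpos (by positivity) h1 (by linarith)).trans (le_of_eq ?_)
  rw [div_eq_inv_mul, Real.mul_rpow (by norm_num) h2.le, ← Real.exp_mul, one_div (2 : ℝ), mul_comm w.re]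

theorem tend_rpow {θ g : ℝ} (hθ : θ ≤ 1) (hg : 0 < g) :
    Tendsto (fun w => hh w ^ (-(1 / 2 + g))) (Fq θ) (𝓝 0) :=
  (tendsto_rpow_neg_atTop (by linarith)).comp (hh_atTop hθ)

variable {Φ b : ℂ → ℂ} {θ C g γ : ℝ}

/-- the dominating function -/
theorem dom (hθ : θ ≤ 1) (hC : 0 ≤ C) (hg : 0 < g)
    (hb : ∀ᶠ w in Fq θ, ‖Φ w‖ ≤ C * (((1 + ‖b w - hh w‖) ^ 2)⁻¹ + hh w ^ (-(1 / 2 + g))))
    (hc : Ctr θ b γ) : ∃ (x1 K K' : ℝ), ∀ x s, pt (sig γ) x s ∈ QQ x1 θ →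
      ‖Φ (pt (sig γ) x s)‖ ≤ K * (1 + s ^ 2)⁻¹ + K' * Real.exp (-(1 / 2 + g) * x) := by
  obtain ⟨x0, h0⟩ := ev_Fq.1 hb
  obtain ⟨K, x1, hK, h1⟩ := hc
  refine ⟨max x0 x1, C * K ^ 2, C * (1 / 2 : ℝ) ^ (-(1 / 2 + g)), fun x s hx => ?_⟩
  have a1 := h0 _ (Ti.QQ_mono (le_max_left _ _) hx)
  have a2 := h1 x s (Ti.QQ_mono (le_max_right _ _) hx)
  have a3 := hh_rpow_le (hx.2.trans hθ) hg
  rw [Ti.pt_re] at a3
  set n := ‖b (pt (sig γ) x s) - hh (pt (sig γ) x s)‖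
  have hn : 0 ≤ n := norm_nonneg _
  have hs := abs_nonneg s
  have a4 : ((1 + n) ^ 2)⁻¹ ≤ K ^ 2 * ((1 + |s|) ^ 2)⁻¹ := by
    rw [← div_eq_mul_inv, le_div_iff₀ (by positivity), inv_mul_le_iff₀ (by positivity), ← mul_pow,
      mul_comm]
    gcongr
  have a5 := mul_le_mul_of_nonneg_left (inv_sq_le s) (sq_nonneg K)
  calc _ ≤ C * (K ^ 2 * (1 + s ^ 2)⁻¹ +
        (1 / 2 : ℝ) ^ (-(1 / 2 + g)) * Real.exp (-(1 / 2 + g) * x)) :=
        a1.trans (mul_le_mul_of_nonneg_left (add_le_add (a4.trans a5) a3) hC)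
    _ = _ := by ring

/-- an end that does not contribute -/
theorem prof_far (h0 : 0 < θ) (hθ : θ ≤ 1) (hC : 0 ≤ C) (hg : 0 < g)
    (hcont : ∃ x1, ContinuousOn Φ (QQ x1 θ))
    (hb : ∀ᶠ w in Fq θ, ‖Φ w‖ ≤ C * (((1 + ‖b w - hh w‖) ^ 2)⁻¹ + hh w ^ (-(1 / 2 + g))))
    (hc : Ctr θ b γ) (hf : Tendsto (fun w => ‖b w - hh w‖) (Fq θ) atTop) :
    ∃ x1, Prof Φ x1 θ 0 (fun _ => 0) fun _ => 0 := by
  obtain ⟨x1, K, K', h1⟩ := dom hθ hC hg hb hc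
  obtain ⟨x2, h2⟩ := hcont
  have t1 : Tendsto (fun w => ((1 + ‖b w - hh w‖) ^ 2)⁻¹) (Fq θ) (𝓝 0) :=
    tendsto_inv_atTop_zero.comp ((tendsto_pow_atTop two_ne_zero).comp
      (tendsto_atTop_add_const_left _ 1 hf))
  have t2 := (t1.add (tend_rpow hθ hg)).const_mul C
  rw [add_zero, mul_zero] at t2
  refine ⟨max x1 x2, cont_slice (h2.mono (Ti.QQ_mono (le_max_right _ _))), integrable_zero _ _ _,
    integrable_zero _ _ _, fun _ => le_rfl, sig γ, fun s => K * (1 + s ^ 2)⁻¹, K', g, hg,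
    integrable_inv_one_add_sq.const_mul _, Or.inl fun _ => ⟨rfl, rfl⟩,
    fun x s hx => h1 x s (Ti.QQ_mono (le_max_left _ _) hx), fun s e he => ?_⟩
  filter_upwards [(tendsto_pt h0 γ s).eventually (hb.and (t2.eventually (ge_mem_nhds he)))]
    with x hx _
  rw [sub_zero, zero_add]
  exact hx.1.trans hx.2

/-- a tied end -/
theorem prof_tie {φ : ℂ → ℂ} {M : ℝ → ℝ} {p : ℕ} {dd : ℝ} (h0 : 0 < θ) (hθ : θ ≤ 1) (hC : 0 ≤ C)
    (hg : 0 < g) (hk : Ker φ M p C) (hcont : ∃ x1, ContinuousOn Φ (QQ x1 θ))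
    (hb : ∀ᶠ w in Fq θ, ‖Φ w‖ ≤ C * (((1 + ‖b w - hh w‖) ^ 2)⁻¹ + hh w ^ (-(1 / 2 + g))))
    (hs : ∀ V ε : ℝ, 0 < ε → ∀ᶠ w in Fq θ, ‖b w - hh w‖ ≤ V → -1 ≤ (b w - hh w).re →
      ‖Φ w - φ (b w - hh w)‖ ≤ M (b w - hh w).im + ε)
    (hc : Ctr θ b γ) (hd : 0 ≤ dd) (ht : ∀ s : ℝ, Tendsto
      (fun x => b (pt (sig γ) x s) - hh (pt (sig γ) x s)) atTop (𝓝 (dd + s * Complex.I))) :
    ∃ x1, Prof Φ x1 θ γ (fun s => φ (dd + s * Complex.I)) M := by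
  obtain ⟨x1, K, K', h1⟩ := dom hθ hC hg hb hc
  obtain ⟨x2, h2⟩ := hcont
  have hre : ∀ s : ℝ, ((dd : ℂ) + s * Complex.I).re = dd := fun s => by simp
  have him : ∀ s : ℝ, ((dd : ℂ) + s * Complex.I).im = s := fun s => by simp
  have c1 : Continuous fun s : ℝ => φ (dd + s * Complex.I) :=
    hk.cont.comp_continuous (by fun_prop) fun s => by
      change (-1 : ℝ) ≤ ((dd : ℂ) + s * Complex.I).re
      rw [hre]; linarith
  have hdiv : ∀ s : ℝ, C / (1 + |s|) ^ 2 ≤ C * (1 + s ^ 2)⁻¹ := fun s => by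
    rw [div_eq_mul_inv]; exact mul_le_mul_of_nonneg_left (inv_sq_le s) hC
  refine ⟨max x1 x2, cont_slice (h2.mono (Ti.QQ_mono (le_max_right _ _))), ?_, ?_, hk.M_nonneg,
    sig γ, fun s => K * (1 + s ^ 2)⁻¹, K', g, hg, integrable_inv_one_add_sq.const_mul _,
    Or.inr fun _ => rfl, fun x s hx => h1 x s (Ti.QQ_mono (le_max_left _ _) hx), fun s e he => ?_⟩
  · refine (integrable_inv_one_add_sq.const_mul C).mono' c1.aestronglyMeasurable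
      (Eventually.of_forall fun s => (hk.dec _ (by rw [hre]; linarith)).trans
        (le_trans ?_ (hdiv s)))
    have a1 : |s| ≤ ‖(dd : ℂ) + s * Complex.I‖ := by
      simpa using Complex.abs_im_le_norm ((dd : ℂ) + s * Complex.I)
    have := abs_nonneg s
    gcongr
  · refine (integrable_inv_one_add_sq.const_mul C).mono' hk.M_cont.aestronglyMeasurable
      (Eventually.of_forall fun s => ?_)
    rw [Real.norm_of_nonneg (hk.M_nonneg s)]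
    exact (hk.M_le s).trans (hdiv s)
  · have a2 : {v : ℂ | -1 ≤ v.re} ∈ 𝓝 ((dd : ℂ) + s * Complex.I) :=
      Complex.continuous_re.continuousAt.eventually (le_mem_nhds (by rw [hre]; linarith))
    have a3 := (hk.cont.continuousAt a2).tendsto.comp (ht s)
    have a4 := ((hk.M_cont.comp Complex.continuous_im).tendsto _).comp (ht s)
    simp only [Function.comp_def, him] at a4
    have he3 : 0 < e / 3 := by positivity
    filter_upwards [(ht s).norm.eventually (ge_mem_nhds (lt_add_one _)), (ht s).eventually a2,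
      Metric.tendsto_nhds.1 a3 _ he3, a4.eventually (ge_mem_nhds (lt_add_of_pos_right _ he3)),
      (tendsto_pt h0 γ s).eventually (hs (‖(dd : ℂ) + s * Complex.I‖ + 1) _ he3)]
      with x b1 b2 b3 b4 b5 _
    have b6 := b5 b1 b2
    rw [dist_eq_norm, Function.comp_apply] at b3
    linarith [norm_sub_le_norm_sub_add_norm_sub (Φ (pt (sig γ) x s))
      (φ (b (pt (sig γ) x s) - hh (pt (sig γ) x s))) (φ (dd + s * Complex.I))]

variable {ι κ : Type} [Fintype ι] [Fintype κ] {f : ℝ → (ι ⊕ κ → ℂ) → ℂ}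
  {m : κ → ℝ → (ι ⊕ κ → ℂ) → ℂ} {φ : ℂ → ℂ} {M : ℝ → ℝ} {ω : ℂ} {d : κ → ℝ} {r δ B0 : ℝ}
  {Z : ℝ → ℂ → ι ⊕ κ → ℂ} {T : ℂ → ℂ}

theorem rel {a : ℂ} (ha : a ≠ 0) (B dj : ℝ) :
    a * (((B - dj : ℝ) : ℂ) + (-2 / a + dj - B)) = -2 := by
  push_cast; field_simp; ring

theorem ev_dom (hθ : θ ≤ 1) (hA : Adm r δ d Z T θ) (B0 : ℝ) :
    ∀ᶠ w in Fq θ, B0 < hh w ∧ zz Z T w ∈ DomB r δ d (hh w) := by
  obtain ⟨n, x1, h1⟩ := hA
  filter_upwards [(hh_atTop hθ).eventually (eventually_gt_atTop B0), ev_Fq.2 ⟨x1, h1⟩] with w a1 a2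
  exact ⟨a1, a2 (Metric.mem_ball_self (by positivity))⟩

/-- **the profiles of all ends** -/
theorem prf_of (h : Rx f m φ M ω d r δ B0 C g) (h0 : 0 < θ) (hθ : θ ≤ 1) (hA : Adm r δ d Z T θ)
    (hcont : ∃ x1, ∀ j, ContinuousOn (mm m Z T j) (QQ x1 θ))
    (hz : Tendsto (zz Z T) (Fq θ) (𝓝 0))
    (hE : ∀ j, Tendsto (fun w => ‖aa (zz Z T w) j‖ * Real.exp w.re) (Fq θ) (𝓝 0) ∨
      (Cls (Fq θ) (fun w => -2 / aa (zz Z T w) j + d j) ∧ ∀ᶠ w in Fq θ, aa (zz Z T w) j ≠ 0))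
    (j0 : κ) (h1 : Tie (Fq θ) (fun w => -2 / aa (zz Z T w) j0 + d j0) 0 0)
    (h2 : ∀ᶠ w in Fq θ, aa (zz Z T w) j0 ≠ 0) : Prf m Z T θ := by
  classical
  have hC := h.C_nonneg
  have hD := ev_dom hθ hA B0
  have hcj : ∀ j, ∃ x1, ContinuousOn (mm m Z T j) (QQ x1 θ) := fun j => hcont.imp fun _ a => a j
  have hb : ∀ j, (∀ᶠ w in Fq θ, aa (zz Z T w) j ≠ 0) → ∀ᶠ w in Fq θ, ‖mm m Z T j w‖ ≤
      C * (((1 + ‖(-2 / aa (zz Z T w) j + d j) - hh w‖) ^ 2)⁻¹ + hh w ^ (-(1 / 2 + g))) :=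
    fun j hj => by
      filter_upwards [hD, hj] with w a1 a2
      exact h.crude' a1.1 a1.2 j _ (rel a2 _ _)
  have hs : ∀ j, (∀ᶠ w in Fq θ, aa (zz Z T w) j ≠ 0) → ∀ V ε : ℝ, 0 < ε → ∀ᶠ w in Fq θ,
      ‖(-2 / aa (zz Z T w) j + d j) - hh w‖ ≤ V →
      -1 ≤ ((-2 / aa (zz Z T w) j + d j) - hh w).re →
      ‖mm m Z T j w - φ ((-2 / aa (zz Z T w) j + d j) - hh w)‖ ≤
        M ((-2 / aa (zz Z T w) j + d j) - hh w).im + ε := fun j hj V ε hε => by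
    obtain ⟨B1, r2, hr2, H⟩ := h.sharp V ε hε
    filter_upwards [hD, hj, (hh_atTop hθ).eventually (eventually_gt_atTop B1),
      hz.norm.eventually (gt_mem_nhds (by simpa using hr2 : ‖(0 : ι ⊕ κ → ℂ)‖ < r2))]
      with w a1 a2 a3 a4
    exact H _ a3 _ a1.2 a4 j _ (rel a2 _ _)
  have key : ∀ j, ∃ (γ : ℝ) (ψ : ℝ → ℂ) (N : ℝ → ℝ) (x1 : ℝ), Prof (mm m Z T j) x1 θ γ ψ N ∧
      ∫ s, N s ≤ ∫ s, M s ∧ 0 ≤ (∫ s : ℝ, Complex.exp ((s / 4 : ℝ) * Complex.I) * ψ s).re ∧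
      (j = j0 → γ = 0 ∧ ψ = fun s : ℝ => φ (s * Complex.I)) := by
    intro j
    have hM : 0 ≤ ∫ s, M s := integral_nonneg h.ker.M_nonneg
    by_cases hj : j = j0
    · subst hj
      obtain ⟨x1, p1⟩ := prof_tie (dd := 0) h0 hθ hC h.g_pos h.ker (hcj j) (hb j h2) (hs j h2)
        (h1.ctr hθ) le_rfl fun s => by simpa using h1.lim h0 s
      refine ⟨0, _, M, x1, p1, le_rfl, h.ker.pos0 0 le_rfl, fun _ => ⟨rfl, ?_⟩⟩
      ext s; simp
    rcases hE j with hj1 | ⟨hj1, hj2⟩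
    · have a1 : ∀ᶠ w in Fq θ, ‖mm m Z T j w‖ ≤
          C * (((1 + ‖(3 * Real.exp w.re : ℂ) - hh w‖) ^ 2)⁻¹ + hh w ^ (-(1 / 2 + g))) := by
        filter_upwards [hD, hj1.eventually (ge_mem_nhds one_pos)] with w a1 a2
        have a3 : 0 < hh w := h.B0_pos.trans a1.1
        have a4 : ‖aa (zz Z T w) j‖ ≤ 1 / hh w := by
          rw [le_div_iff₀ a3]
          exact (mul_le_mul_of_nonneg_left (Ti.hh_le w) (norm_nonneg _)).trans a2
        refine (h.crude0 _ a1.1 _ a1.2 j a4).trans (mul_le_mul_of_nonneg_left ?_ hC)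
        exact le_add_of_nonneg_left (by positivity)
      have a2 : ∀ w : ℂ, 1 * Real.exp w.re ≤ ‖(3 * Real.exp w.re : ℂ) - hh w‖ := fun w => by
        have a3 := Complex.re_le_norm ((3 * Real.exp w.re : ℂ) - hh w)
        have a4 := Ti.hh_le w
        have a5 := Real.exp_pos w.re
        simp only [Complex.sub_re, Complex.mul_re, Complex.ofReal_re, Complex.ofReal_im,
          Complex.re_ofNat, Complex.im_ofNat] at a3
        linarith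
      obtain ⟨x1, p1⟩ := prof_far (b := fun w => (3 * Real.exp w.re : ℂ)) h0 hθ hC h.g_pos (hcj j) a1
        (ctr_of_lin hθ one_pos (Eventually.of_forall a2))
        (tendsto_atTop_mono a2 (by simpa using exp_atTop θ))
      exact ⟨0, _, _, x1, p1, by simpa using hM, by simp, fun a => absurd a hj⟩
    obtain ⟨γ, c1, c2 | ⟨dd, c2, c3⟩⟩ := hj1.geo h0 hθ
    · obtain ⟨x1, p1⟩ := prof_far h0 hθ hC h.g_pos (hcj j) (hb j hj2) c1 c2
      exact ⟨0, _, _, x1, p1, by simpa using hM, by simp, fun a => absurd a hj⟩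
    · obtain ⟨x1, p1⟩ := prof_tie h0 hθ hC h.g_pos h.ker (hcj j) (hb j hj2) (hs j hj2) c1 c2 c3
      exact ⟨γ, _, M, x1, p1, le_rfl, h.ker.pos0 dd c2, fun a => absurd a hj⟩
  choose γ ψ N x1 k1 k2 k3 k4 using key
  obtain ⟨x2, hx2⟩ := (Set.finite_range x1).bddAbove
  refine ⟨γ, ψ, N, x2, fun j => Prof_mono (k1 j) (hx2 ⟨j, rfl⟩), ?_⟩
  have a1 : ∑ j, ∫ s, N j s ≤ Fintype.card κ * ∫ s, M s := by
    rw [← Finset.card_univ, ← nsmul_eq_mul, ← Finset.sum_const]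
    exact Finset.sum_le_sum fun j _ => k2 j
  refine a1.trans_lt (h.ker.pos.trans_le (le_trans (le_of_eq ?_) (Finset.single_le_sum (f := fun j =>
    (∫ s : ℝ, Complex.exp ((s / 4 : ℝ) * Complex.I) * ψ j s).re) (fun j _ => k3 j)
    (a := j0) (by simp [(k4 j0 rfl).1]))))
  rw [(k4 j0 rfl).2]

end Crest.Agent.N250.St.PF

end
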