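import Crest.Agent.N250.St.Box

/-!
# Row 250, block B2 (helper47): the Abelian closure of the real-`x` Stokes argument.
-/

set_option autoImplicit false
open Set Filter Topology MeasureTheory intervalIntegral

noncomputable section

namespace Crest.Agent.N250.St

/-- the weight of the area integral -/
def wt0 (e : ℝ) (w : ℂ) : ℂ :=
  Real.exp w.re * ((chi w.im : ℂ) - (3 / 4 * w.im : ℝ) * Complex.I) * Real.exp (-hh w / 4) *
    Complex.exp (w + (1 / 4 - e : ℝ) * Complex.exp w)

/-- the per-end lemma -/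
def InnerS : Prop :=
  ∀ (Φ : ℂ → ℂ) (x₀ θ γ : ℝ) (φ : ℝ → ℂ) (M : ℝ → ℝ), Prof Φ x₀ θ γ φ M → 0 < θ → θ ≤ 1 →
    ∀ η : ℝ, 0 < η → ∀ᶠ p : ℝ × ℝ in atTop ×ˢ 𝓝[>] 0,
      ‖(∫ y : ℝ in (-θ)..θ, wt0 p.2 (p.1 + y * Complex.I) * Φ (p.1 + y * Complex.I)) -
        (Real.exp p.1 * Real.exp (-p.2 * Real.exp p.1) * Real.exp (-γ ^ 2 / 32) : ℝ) *
          Complex.exp (-((1 / 4 - p.2) * γ * Real.exp (p.1 / 2) : ℝ) * Complex.I) *
            ∫ s : ℝ, Complex.exp ((s / 4 : ℝ) * Complex.I) * φ s‖ ≤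
        Real.exp p.1 * (Real.exp (-p.2 * Real.exp p.1) * (∫ s, M s) +
          η * Real.exp (-p.2 * Real.exp p.1 / 2))

theorem cont_inner {F : ℂ → ℂ} {x₀ θ : ℝ} (h0 : 0 < θ) (hF : ContinuousOn F (QQ x₀ θ)) :
    ContinuousOn (fun x : ℝ => ∫ y : ℝ in (-θ)..θ, F (x + y * Complex.I)) (Ici x₀) := by
  set r : ℝ → ℝ → ℂ := fun x y => (max x x₀ : ℝ) + (max (-θ) (min y θ) : ℝ) * Complex.I with hr
  have h1 : Continuous (Function.uncurry fun x y => F (r x y)) := by
    refine hF.comp_continuous (f := fun p : ℝ × ℝ => r p.1 p.2) (by simp only [hr]; fun_prop)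
      fun p => ⟨by simp [hr], ?_⟩
    simp only [hr, Complex.add_im, Complex.ofReal_im, Complex.mul_im, Complex.ofReal_re,
      Complex.I_im, Complex.I_re, mul_one, mul_zero, add_zero, zero_add]
    exact abs_le.2 ⟨le_max_left _ _, max_le (by linarith) (min_le_right _ _)⟩
  refine (continuous_parametric_intervalIntegral_of_continuous' h1 (-θ) θ).continuousOn.congr
    fun x hx => integral_congr fun y hy => ?_
  rw [uIcc_of_le (by linarith)] at hy
  simp only [hr]
  rw [max_eq_left hx, min_eq_left hy.2, max_eq_right hy.1]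

theorem st2_of (hI : InnerS) : ST2Stmt := by
  intro D _ G G' x₀ θ Φ γ φ M h
  classical
  set I : D → ℂ := fun j => ∫ s : ℝ, Complex.exp ((s / 4 : ℝ) * Complex.I) * φ j s with hIdef
  set Θ := ∑ j, ∫ s, M j s with hΘ
  set a₀ := ∑ j ∈ Finset.univ.filter fun j => γ j = 0, (I j).re with ha₀
  set g := a₀ - Θ with hg
  have hg0 : 0 < g := sub_pos.2 h.pos
  set p : ℝ := (Fintype.card D : ℝ) with hp
  have hp0 : 0 ≤ p := Nat.cast_nonneg _
  set η := g / (16 * (p + 1)) with hη
  have hη0 : 0 < η := by positivity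
  have hηp : 2 * p * η ≤ g / 8 := by
    have : η * (16 * (p + 1)) = g := div_mul_cancel₀ _ (by positivity)
    nlinarith
  set K := ∑ j, ‖I j‖ * (16 / |γ j|) with hK
  have hK0 : 0 ≤ K := Finset.sum_nonneg fun j _ => by positivity
  obtain ⟨pa, hpa, pb, hpb, hab⟩ := eventually_prod_iff.1
    (eventually_all.2 fun j => hI _ _ _ _ _ _ (h.prof j) h.θ_pos h.θ_le η hη0)
  have hKa : ∀ᶠ a : ℝ in atTop, K * Real.exp (-a / 2) ≤ g / 8 := by
    have h1 : Tendsto (fun a : ℝ => K * Real.exp (-a / 2)) atTop (𝓝 (K * 0)) :=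
      (Real.tendsto_exp_atBot.comp (tendsto_neg_atTop_atBot.atBot_div_const two_pos)).const_mul K
    exact h1.eventually_le_const (by rw [mul_zero]; linarith)
  obtain ⟨a₁, ha₁⟩ := eventually_atTop.1 hpa
  obtain ⟨a, ha1, ha2, ha3⟩ :=
    (hKa.and ((eventually_ge_atTop a₁).and (eventually_ge_atTop x₀))).exists
  set Dd : ℂ → ℂ := fun w => Real.exp w.re * ((chi w.im : ℂ) - (3 / 4 * w.im : ℝ) * Complex.I) *
    Real.exp (-hh w / 4) * ∑ j, Φ j w with hDd
  have hDc : ContinuousOn Dd (QQ x₀ θ) :=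
    ContinuousOn.mul (Continuous.continuousOn (by unfold hh chi; fun_prop)) h.cont
  obtain ⟨C, hC⟩ := box h.θ_pos h.θ_le h.der (D := Dd) h.dbar hDc h.rate ha3
  have e1 : ∀ᶠ ε : ℝ in 𝓝[>] 0, ε * C < g / 8 := nhdsWithin_le_nhds
    (ContinuousAt.eventually_lt (by fun_prop) continuousAt_const (by simp; linarith))
  have e2 : ∀ᶠ ε : ℝ in 𝓝[>] 0, 4 * K * √ε < g / 8 := nhdsWithin_le_nhds
    (ContinuousAt.eventually_lt (by fun_prop) continuousAt_const (by simp; linarith))
  have e3 : ∀ᶠ ε : ℝ in 𝓝[>] 0, 3 / 4 < Real.exp (-ε * Real.exp a) := nhdsWithin_le_nhds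
    (ContinuousAt.eventually_lt continuousAt_const (by fun_prop) (by simp; norm_num))
  have e4 : ∀ᶠ ε : ℝ in 𝓝[>] 0, ε < 1 / 8 := nhdsWithin_le_nhds (eventually_lt_nhds (by norm_num))
  obtain ⟨ε, ⟨⟨c1, c2⟩, c3, c4⟩, c5, hε⟩ :=
    (((e1.and e2).and (e3.and e4)).and (hpb.and self_mem_nhdsWithin)).exists
  replace hε : 0 < ε := hε
  have e5 : ∀ᶠ b : ℝ in atTop, Real.exp (-ε * Real.exp b) ≤ 1 / 8 :=
    (Real.tendsto_exp_atBot.comp (Real.tendsto_exp_atTop.const_mul_atTop_of_neg
      (neg_lt_zero.2 hε))).eventually_le_const (by norm_num)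
  obtain ⟨b, ⟨d1, d2⟩, hb⟩ :=
    (((hC ε hε (by linarith)).and e5).and (eventually_ge_atTop a)).exists
  -- the pieces
  set A : ℝ → ℂ := fun x => ∫ y : ℝ in (-θ)..θ,
    Dd (x + y * Complex.I) * psi ε (x + y * Complex.I) with hA
  set o : D → ℝ → ℂ := fun j x => ((Real.exp x * Real.exp (-ε * Real.exp x) : ℝ) : ℂ) *
    Complex.exp (-((1 / 4 - ε) * γ j * Real.exp (x / 2) : ℝ) * Complex.I) with ho
  set c : D → ℂ := fun j => (Real.exp (-γ j ^ 2 / 32) : ℝ) * I j with hc
  have hAc : ContinuousOn A (Ici x₀) := cont_inner (F := fun w => Dd w * psi ε w) h.θ_pos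
    (hDc.mul (Continuous.continuousOn (by unfold psi; fun_prop)))
  have hAi : IntervalIntegrable A volume a b := by
    refine (hAc.mono ?_).intervalIntegrable
    rw [uIcc_of_le hb]
    exact fun x hx => ha3.trans hx.1
  have hoi : ∀ j, IntervalIntegrable (fun x => c j * o j x) volume a b := fun j =>
    Continuous.intervalIntegrable (by simp only [ho]; fun_prop) _ _
  have hsi : IntervalIntegrable (fun x => ∑ j, c j * o j x) volume a b :=
    Continuous.intervalIntegrable (by simp only [ho]; fun_prop) _ _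
  have hpt : ∀ x, a ≤ x → ‖A x - ∑ j, c j * o j x‖ ≤ Θ * (Real.exp x * Real.exp (-ε * Real.exp x)) +
      p * η * (Real.exp x * Real.exp (-(ε / 2) * Real.exp x)) := by
    intro x hx
    have h1 : A x = ∑ j, ∫ y : ℝ in (-θ)..θ,
        wt0 ε (x + y * Complex.I) * Φ j (x + y * Complex.I) := by
      rw [← intervalIntegral.integral_finset_sum]
      · refine integral_congr fun y _ => ?_
        simp only [hDd, wt0, psi]
        rw [← Finset.mul_sum]
        ring
      · intro j _
        refine ContinuousOn.intervalIntegrable ?_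
        rw [uIcc_of_le (by linarith [h.θ_pos])]
        exact ContinuousOn.mul (Continuous.continuousOn (by unfold wt0 hh chi; fun_prop))
          ((h.prof j).cont x (ha3.trans hx))
    rw [h1, ← Finset.sum_sub_distrib]
    refine (norm_sum_le _ _).trans ((Finset.sum_le_sum fun j _ => (le_of_eq ?_).trans
      (hab (ha₁ x (ha2.trans hx)) c5 j)).trans (le_of_eq ?_))
    · congr 2
      simp only [hc, ho, hIdef]
      push_cast
      ring
    · simp only [← Finset.mul_sum, Finset.sum_add_distrib, Finset.sum_const, Finset.card_univ,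
        nsmul_eq_mul, ← hΘ, ← hp]
      rw [show -ε * Real.exp x / 2 = -(ε / 2) * Real.exp x by ring]
      ring
  set J := (Real.exp (-ε * Real.exp a) - Real.exp (-ε * Real.exp b)) / ε with hJ
  have h2 : ‖(∫ x in a..b, A x) - ∑ j, c j * ∫ x in a..b, o j x‖ ≤ Θ * J + p * η * (1 / (ε / 2)) := by
    have h3 : ∑ j, c j * ∫ x in a..b, o j x = ∫ x in a..b, ∑ j, c j * o j x := by
      rw [intervalIntegral.integral_finset_sum fun j _ => hoi j]
      simp only [intervalIntegral.integral_const_mul]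
    rw [h3, ← integral_sub hAi hsi]
    refine (norm_integral_le_of_norm_le hb (Eventually.of_forall fun x hx => hpt x hx.1.le)
      (Continuous.intervalIntegrable (by fun_prop) _ _)).trans ?_
    rw [integral_add (Continuous.intervalIntegrable (by fun_prop) _ _)
      (Continuous.intervalIntegrable (by fun_prop) _ _), intervalIntegral.integral_const_mul Θ,
      intervalIntegral.integral_const_mul (p * η), int_ee hε.ne']
    exact add_le_add le_rfl (mul_le_mul_of_nonneg_left (int_ee_le (half_pos hε) a b)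
      (mul_nonneg hp0 hη0.le))
  have h4 : ∀ j, (if γ j = 0 then (I j).re else 0) * (ε * J) -
      ‖I j‖ * (16 / |γ j|) * (4 * √ε + Real.exp (-a / 2)) ≤
        ε * (c j * ∫ x in a..b, o j x).re := by
    intro j
    split_ifs with hγ
    · have h5 : ∫ x in a..b, o j x = (J : ℂ) := by
        simp only [ho, hγ, mul_zero, zero_mul, Complex.ofReal_zero, neg_zero, Complex.exp_zero,
          mul_one]
        rw [intervalIntegral.integral_ofReal, int_ee hε.ne']
      rw [h5]
      simp only [hc, hγ, Complex.re_mul_ofReal, Complex.re_ofReal_mul]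
      simp
      nlinarith
    · have hγ0 : 0 < |γ j| := abs_pos.2 hγ
      have h5 := osc (β := (1 / 4 - ε) * γ j) (mul_ne_zero (by linarith) hγ) hε hb
      have h6 : 2 / |(1 / 4 - ε) * γ j| ≤ 16 / |γ j| := by
        rw [abs_mul, abs_of_pos (by linarith : 0 < 1 / 4 - ε),
          div_le_div_iff₀ (mul_pos (by linarith) hγ0) hγ0]
        nlinarith
      have h7 : ‖c j‖ ≤ ‖I j‖ := by
        simp only [hc]
        rw [norm_mul, Complex.norm_real, Real.norm_of_nonneg (Real.exp_pos _).le]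
        exact mul_le_of_le_one_left (norm_nonneg _)
          (Real.exp_le_one_iff.2 (by nlinarith [sq_nonneg (γ j)]))
      have h8 := h5.trans (mul_le_mul_of_nonneg_right h6 (by positivity))
      have h9 := mul_le_mul h7 h8 (by positivity) (norm_nonneg _)
      have h10 := (abs_le.1 (Complex.abs_re_le_norm (c j * ∫ x in a..b, o j x))).1
      rw [norm_mul] at h10
      have h11 := mul_le_mul_of_nonneg_left h10 hε.le
      simp only [ho] at h11 ⊢
      linarith
  have h5 := Finset.sum_le_sum fun j (_ : j ∈ Finset.univ) => h4 j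
  rw [Finset.sum_sub_distrib, ← Finset.sum_mul, ← Finset.sum_mul, ← Finset.sum_filter, ← ha₀, ← hK,
    ← Finset.mul_sum, ← Complex.re_sum] at h5
  have h6 := (abs_le.1 ((Complex.abs_re_le_norm _).trans h2)).1
  rw [Complex.sub_re] at h6
  have h7 := (abs_le.1 ((Complex.abs_re_le_norm _).trans d1)).2
  have h8 : ε * (p * η * (1 / (ε / 2))) = 2 * p * η := by field_simp
  have h9 : 5 / 8 ≤ ε * J := by
    rw [hJ, mul_div_cancel₀ _ hε.ne']
    linarith
  have h10 := mul_le_mul_of_nonneg_left (show (∑ j, c j * ∫ x in a..b, o j x).re ≤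
    C + (Θ * J + p * η * (1 / (ε / 2))) by linarith) hε.le
  have h11 := mul_le_mul_of_nonneg_left h9 hg0.le
  nlinarith

end Crest.Agent.N250.St

end
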