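import Crest.Agent.N250.St.Defs2

/-!
# Row 250, block B2 (helper47): Stokes formula on rectangles and the oscillation lemma.
-/

set_option autoImplicit false
open Set Filter Topology MeasureTheory intervalIntegral

noncomputable section

namespace Crest.Agent.N250.St

/-- the test function -/
def psi (e : ℝ) (w : ℂ) : ℂ := Complex.exp (w + (1 / 4 - e : ℝ) * Complex.exp w)

theorem norm_psi (e : ℝ) (w : ℂ) :
    ‖psi e w‖ = Real.exp w.re * Real.exp ((1 / 4 - e) * (Real.exp w.re * Real.cos w.im)) := by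
  rw [psi, Complex.norm_exp, Complex.add_re, Complex.re_ofReal_mul, Complex.exp_re, Real.exp_add]

theorem cos_le_chi {y : ℝ} (hy : |y| ≤ 1) : Real.cos y + y ^ 2 / 16 ≤ chi y := by
  have h1 := (abs_le.1 (Real.cos_bound hy)).2
  have h2 : |y| ^ 4 ≤ y ^ 2 := by
    rw [← sq_abs y]
    exact pow_le_pow_of_le_one (abs_nonneg _) hy (by norm_num)
  unfold chi
  nlinarith [sq_nonneg y]

theorem half_le_cos {y : ℝ} (hy : |y| ≤ 1) : 1 / 2 ≤ Real.cos y := by
  have h1 := Real.one_sub_sq_div_two_le_cos (x := y)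
  have h2 : y ^ 2 ≤ 1 := by rw [← sq_abs y]; exact pow_le_one₀ (abs_nonneg _) hy
  linarith

theorem chi_le_one (y : ℝ) : chi y ≤ 1 := by unfold chi; nlinarith [sq_nonneg y]

theorem int_ee {κ : ℝ} (hκ : κ ≠ 0) (a b : ℝ) :
    ∫ x in a..b, Real.exp x * Real.exp (-κ * Real.exp x) =
      (Real.exp (-κ * Real.exp a) - Real.exp (-κ * Real.exp b)) / κ := by
  have h : ∀ x ∈ uIcc a b, HasDerivAt (fun x => -Real.exp (-κ * Real.exp x) / κ)
      (Real.exp x * Real.exp (-κ * Real.exp x)) x := fun x _ => by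
    refine ((((Real.hasDerivAt_exp x).const_mul (-κ)).exp.neg).div_const κ).congr_deriv ?_
    field_simp
  rw [integral_eq_sub_of_hasDerivAt h (Continuous.intervalIntegrable (by fun_prop) _ _)]
  ring

theorem int_ee_le {κ : ℝ} (hκ : 0 < κ) (a b : ℝ) :
    ∫ x in a..b, Real.exp x * Real.exp (-κ * Real.exp x) ≤ 1 / κ := by
  rw [int_ee hκ.ne']
  refine div_le_div_of_nonneg_right ?_ hκ.le
  have : Real.exp (-κ * Real.exp a) ≤ 1 :=
    Real.exp_le_one_iff.2 (by nlinarith [Real.exp_pos a])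
  linarith [Real.exp_pos (-κ * Real.exp b)]

/-- the oscillation lemma -/
theorem osc {β ε a b : ℝ} (hβ : β ≠ 0) (hε : 0 < ε) (hab : a ≤ b) :
    ε * ‖∫ x in a..b, ((Real.exp x * Real.exp (-ε * Real.exp x) : ℝ) : ℂ) *
      Complex.exp (-(β * Real.exp (x / 2) : ℝ) * Complex.I)‖ ≤
        2 / |β| * (4 * √ε + Real.exp (-a / 2)) := by
  set E : ℝ → ℂ := fun x => Complex.exp (-(β * Real.exp (x / 2) : ℝ) * Complex.I) with hE
  set g : ℝ → ℝ := fun x => Real.exp (x / 2) * Real.exp (-ε * Real.exp x) with hg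
  set g' : ℝ → ℝ := fun x => (1 / 2 - ε * Real.exp x) * g x with hg'
  have hEn : ∀ x, ‖E x‖ = 1 := fun x => by
    rw [hE]; simp only; rw [← Complex.ofReal_neg, Complex.norm_exp_ofReal_mul_I]
  have h2 : ∀ x, Real.exp x = Real.exp (x / 2) * Real.exp (x / 2) := fun x => by
    rw [← Real.exp_add, add_halves]
  have hx2 : ∀ x, HasDerivAt (fun x => Real.exp (x / 2)) (Real.exp (x / 2) * (1 / 2)) x :=
    fun x => ((hasDerivAt_id x).div_const 2).exp
  have hgd : ∀ x, HasDerivAt g (g' x) x := fun x => by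
    refine ((hx2 x).mul ((Real.hasDerivAt_exp x).const_mul (-ε)).exp).congr_deriv ?_
    simp only [hg', hg]; ring
  have hEd : ∀ x, HasDerivAt E (E x * (-(β * (Real.exp (x / 2) * (1 / 2)) : ℝ) * Complex.I)) x :=
    fun x => ((((hx2 x).const_mul β).ofReal_comp.neg).mul_const Complex.I).cexp
  have hβ' : (β : ℂ) ≠ 0 := by exact_mod_cast hβ
  have hB : ∀ x ∈ uIcc a b, HasDerivAt (fun x => 2 * Complex.I / β * ((g x : ℂ) * E x))
      (((Real.exp x * Real.exp (-ε * Real.exp x) : ℝ) : ℂ) * E x +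
        2 * Complex.I / β * ((g' x : ℂ) * E x)) x := fun x _ => by
    refine (((hgd x).ofReal_comp.mul (hEd x)).const_mul (2 * Complex.I / β)).congr_deriv ?_
    have h3 : ((Real.exp x * Real.exp (-ε * Real.exp x) : ℝ) : ℂ) =
        (g x : ℂ) * (Real.exp (x / 2) : ℝ) := by
      rw [← Complex.ofReal_mul]; congr 1; simp only [hg]; nth_rewrite 1 [h2 x]; ring
    rw [h3]
    simp only [Complex.ofReal_mul, Complex.ofReal_div, Complex.ofReal_one, Complex.ofReal_ofNat]
    field_simp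
    linear_combination (-(g x : ℂ) * (Real.exp (x / 2) : ℝ) * E x * β) * Complex.I_mul_I
  have hEc : Continuous E := by rw [hE]; fun_prop
  have hgc : Continuous g' := by simp only [hg', hg]; fun_prop
  have i1 : IntervalIntegrable (fun x => ((Real.exp x * Real.exp (-ε * Real.exp x) : ℝ) : ℂ) * E x)
      volume a b := Continuous.intervalIntegrable (by fun_prop) _ _
  have i2 : IntervalIntegrable (fun x => 2 * Complex.I / β * ((g' x : ℂ) * E x)) volume a b :=
    Continuous.intervalIntegrable (by fun_prop) _ _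
  have h4 := integral_eq_sub_of_hasDerivAt hB (i1.add i2)
  rw [integral_add i1 i2] at h4
  have hs : 0 < √ε := Real.sqrt_pos.2 hε
  have hss : √ε * √ε = ε := Real.mul_self_sqrt hε.le
  have hK : ‖2 * Complex.I / β‖ = 2 / |β| := by simp
  have hK0 : 0 ≤ 2 / |β| := by positivity
  have hu : ∀ x, √ε * Real.exp (x / 2) ≤ Real.exp (ε / 2 * Real.exp x) := fun x => by
    have h5 := Real.add_one_le_exp (ε / 2 * Real.exp x)
    have h6 : ε / 2 * Real.exp x = (√ε * Real.exp (x / 2)) ^ 2 / 2 := by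
      rw [mul_pow, Real.sq_sqrt hε.le, pow_two, ← h2]; ring
    nlinarith [sq_nonneg (√ε * Real.exp (x / 2) - 1)]
  have hsp : ∀ x, Real.exp (-ε * Real.exp x) * Real.exp (ε / 2 * Real.exp x) =
      Real.exp (-(ε / 2) * Real.exp x) := fun x => by rw [← Real.exp_add]; ring_nf
  have hle1 : ∀ x, Real.exp (-(ε / 2) * Real.exp x) ≤ 1 := fun x =>
    Real.exp_le_one_iff.2 (by nlinarith [Real.exp_pos x])
  have hg1 : ∀ x, √ε * g x ≤ Real.exp (-(ε / 2) * Real.exp x) := fun x => by
    rw [← hsp]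
    have := mul_le_mul_of_nonneg_left (hu x) (Real.exp_pos (-ε * Real.exp x)).le
    simp only [hg]; linarith
  have hg0 : ∀ x, 0 < g x := fun x => by simp only [hg]; positivity
  have hBn : ∀ x, ε * ‖2 * Complex.I / β * ((g x : ℂ) * E x)‖ ≤ 2 / |β| * √ε := fun x => by
    rw [norm_mul, hK, norm_mul, hEn, mul_one, Complex.norm_real, Real.norm_of_nonneg (hg0 x).le]
    have := mul_le_mul_of_nonneg_left ((hg1 x).trans (hle1 x)) (mul_nonneg hK0 hs.le)
    have e : ε * (2 / |β| * g x) = 2 / |β| * √ε * (√ε * g x) := by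
      nth_rewrite 1 [← hss]; ring
    linarith
  have h7 : ‖∫ x in a..b, 2 * Complex.I / β * ((g' x : ℂ) * E x)‖ ≤
      ∫ x in a..b, 2 / |β| * (Real.exp (-a / 2) / 2 + √ε) *
        (Real.exp x * Real.exp (-(ε / 2) * Real.exp x)) := by
    refine norm_integral_le_of_norm_le hab (Eventually.of_forall fun x hx => ?_)
      (Continuous.intervalIntegrable (by fun_prop) _ _)
    rw [norm_mul, hK, norm_mul, hEn, mul_one, Complex.norm_real, Real.norm_eq_abs, mul_assoc]
    refine mul_le_mul_of_nonneg_left ?_ hK0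
    have b1 : g x ≤ Real.exp (-a / 2) * (Real.exp x * Real.exp (-(ε / 2) * Real.exp x)) := by
      have c1 : Real.exp (x / 2) ≤ Real.exp (-a / 2) * Real.exp x := by
        rw [← Real.exp_add]; exact Real.exp_le_exp.2 (by linarith [hx.1])
      have c2 : Real.exp (-ε * Real.exp x) ≤ Real.exp (-(ε / 2) * Real.exp x) :=
        Real.exp_le_exp.2 (by nlinarith [Real.exp_pos x])
      rw [← mul_assoc]
      exact mul_le_mul c1 c2 (Real.exp_pos _).le (by positivity)
    have b2 : ε * Real.exp x * g x ≤ √ε * (Real.exp x * Real.exp (-(ε / 2) * Real.exp x)) := by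
      have := mul_le_mul_of_nonneg_left (hg1 x) (mul_pos hs (Real.exp_pos x)).le
      have e : ε * Real.exp x * g x = √ε * Real.exp x * (√ε * g x) := by
        nth_rewrite 1 [← hss]; ring
      linarith
    have b3 : 0 ≤ ε * Real.exp x * g x := by have := hg0 x; positivity
    rw [abs_le]
    simp only [hg']
    constructor <;> nlinarith [hg0 x]
  rw [intervalIntegral.integral_const_mul (2 / |β| * (Real.exp (-a / 2) / 2 + √ε))] at h7
  have h8 := mul_le_mul_of_nonneg_left (int_ee_le (half_pos hε) a b)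
    (show 0 ≤ 2 / |β| * (Real.exp (-a / 2) / 2 + √ε) by positivity)
  have h9 := mul_le_mul_of_nonneg_left (le_trans h7 h8) hε.le
  have h10 : ε * (2 / |β| * (Real.exp (-a / 2) / 2 + √ε) * (1 / (ε / 2))) =
      2 / |β| * (Real.exp (-a / 2) + 2 * √ε) := by field_simp
  rw [eq_sub_of_add_eq h4]
  have h11 := mul_le_mul_of_nonneg_left ((norm_sub_le _ _).trans (add_le_add (norm_sub_le
    (2 * Complex.I / β * ((g b : ℂ) * E b)) (2 * Complex.I / β * ((g a : ℂ) * E a)))
    (le_refl ‖∫ x in a..b, 2 * Complex.I / β * ((g' x : ℂ) * E x)‖))) hε.le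
  linarith [hBn a, hBn b]

/-- Stokes: the area integral of `(∂_x + i ∂_y) G ψ_ε` is bounded uniformly in `ε` -/
theorem box {G D : ℂ → ℂ} {G' : ℂ → ℂ →L[ℝ] ℂ} {x₀ θ : ℝ} (h0 : 0 < θ) (h1 : θ ≤ 1)
    (hd : ∀ w ∈ QQ x₀ θ, HasFDerivAt G (G' w) w)
    (hD : ∀ w ∈ QQ x₀ θ, G' w 1 + Complex.I * G' w Complex.I = D w)
    (hc : ContinuousOn D (QQ x₀ θ))
    (hr : ∀ ε, 0 < ε → ∃ C, ∀ w ∈ QQ x₀ θ, ‖G w‖ ≤ C * Real.exp (-(1 / 4 - ε) * hh w))
    {a : ℝ} (ha : x₀ ≤ a) : ∃ C, ∀ ε, 0 < ε → ε ≤ 1 / 4 → ∀ᶠ b : ℝ in atTop,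
      ‖∫ x : ℝ in a..b, ∫ y : ℝ in (-θ)..θ,
        D (x + y * Complex.I) * psi ε (x + y * Complex.I)‖ ≤ C := by
  have hr' : ∀ ε, 0 < ε → ∃ C, 0 ≤ C ∧
      ∀ w ∈ QQ x₀ θ, ‖G w‖ ≤ C * Real.exp (-(1 / 4 - ε) * hh w) := fun ε hε => by
    obtain ⟨C, hC⟩ := hr ε hε
    exact ⟨|C|, abs_nonneg _, fun w hw =>
      (hC w hw).trans (mul_le_mul_of_nonneg_right (le_abs_self _) (Real.exp_pos _).le)⟩
  set κ := θ ^ 2 / 128 with hκ
  have hκ0 : 0 < κ := by positivity
  obtain ⟨C₁, h10, hC₁⟩ := hr' κ hκ0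
  obtain ⟨C₂, h20, hC₂⟩ := hr' (1 / 4) (by norm_num)
  have hmem : ∀ x y : ℝ, a ≤ x → |y| ≤ θ → (x + y * Complex.I : ℂ) ∈ QQ x₀ θ := fun x y hx hy =>
    ⟨by simpa using ha.trans hx, by simpa using hy⟩
  have hy : ∀ y ∈ uIoc (-θ) θ, |y| ≤ θ := fun y hy => by
    rw [uIoc_of_le (by linarith)] at hy
    exact abs_le.2 ⟨hy.1.le, hy.2⟩
  refine ⟨2 * (C₁ * (1 / κ)) + 1 + C₂ * (Real.exp a * Real.exp (Real.exp a / 4)) * |θ - -θ|,
    fun ε hε hε4 => ?_⟩
  obtain ⟨C₃, h30, hC₃⟩ := hr' (ε / 2) (half_pos hε)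
  have hlim : Tendsto (fun b : ℝ => C₃ * (Real.exp b * Real.exp (-(ε / 4) * Real.exp b)) *
      |θ - -θ|) atTop (𝓝 0) := by
    have := (Real.tendsto_pow_mul_exp_neg_atTop_nhds_zero 1).comp
      (Real.tendsto_exp_atTop.const_mul_atTop (show 0 < ε / 4 by linarith))
    have h2 := (this.const_mul (C₃ * (4 / ε))).mul_const |θ - -θ|
    simp only [mul_zero, zero_mul] at h2
    refine h2.congr fun b => ?_
    simp only [Function.comp, pow_one, neg_mul]
    field_simp
  filter_upwards [eventually_ge_atTop a, hlim.eventually_le_const one_pos] with b hb hb1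
  set f : ℂ → ℂ := fun w => G w * psi ε w with hf
  have hψ : ∀ w, HasDerivAt (psi ε) (psi ε w * (1 + (1 / 4 - ε : ℝ) * Complex.exp w)) w :=
    fun w => ((hasDerivAt_id w).add ((Complex.hasDerivAt_exp w).const_mul _)).cexp
  set f' : ℂ → ℂ →L[ℝ] ℂ := fun w => G w • (ContinuousLinearMap.toSpanSingleton ℂ
    (psi ε w * (1 + (1 / 4 - ε : ℝ) * Complex.exp w))).restrictScalars ℝ + psi ε w • G' w with hf'
  have hfd : ∀ w ∈ QQ x₀ θ, HasFDerivAt f (f' w) w := fun w hw =>
    (hd w hw).mul ((hψ w).hasFDerivAt.restrictScalars ℝ)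
  have hfD : ∀ w ∈ QQ x₀ θ, Complex.I • f' w 1 - f' w Complex.I =
      Complex.I * (D w * psi ε w) := fun w hw => by
    rw [← hD w hw]
    simp only [hf', add_apply, smul_apply,
      ContinuousLinearMap.coe_restrictScalars', ContinuousLinearMap.toSpanSingleton_apply,
      smul_eq_mul]
    linear_combination (-psi ε w * G' w Complex.I) * Complex.I_mul_I
  have hsub : (uIcc a b ×ℂ uIcc (-θ) θ) ⊆ QQ x₀ θ := fun w hw => by
    rw [uIcc_of_le hb, uIcc_of_le (by linarith)] at hw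
    exact ⟨ha.trans hw.1.1, abs_le.2 hw.2⟩
  have hψc : Continuous (psi ε) := continuous_iff_continuousAt.2 fun w => (hψ w).continuousAt
  have hS := Complex.integral_boundary_rect_of_hasFDerivAt_real_off_countable f f'
    ⟨a, -θ⟩ ⟨b, θ⟩ ∅ countable_empty
    (fun w hw => (hfd w (hsub hw)).continuousAt.continuousWithinAt)
    (fun w hw => hfd w (hsub ⟨Ioo_subset_Icc_self hw.1.1, Ioo_subset_Icc_self hw.1.2⟩))
    (by
      have hK : IsCompact (uIcc a b ×ℂ uIcc (-θ) θ) := isCompact_uIcc.reProdIm isCompact_uIcc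
      refine IntegrableOn.congr_fun (f := fun w => Complex.I * (D w * psi ε w)) ?_
        (fun w hw => (hfD w (hsub hw)).symm) hK.measurableSet
      exact (continuousOn_const.mul ((hc.mono hsub).mul hψc.continuousOn)).integrableOn_compact hK)
  have hR : (∫ x : ℝ in a..b, ∫ y : ℝ in (-θ)..θ, Complex.I • f' (x + y * Complex.I) 1 -
      f' (x + y * Complex.I) Complex.I) = Complex.I * ∫ x : ℝ in a..b, ∫ y : ℝ in (-θ)..θ,
        D (x + y * Complex.I) * psi ε (x + y * Complex.I) := by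
    rw [← intervalIntegral.integral_const_mul]
    refine integral_congr fun x hx => ?_
    rw [← intervalIntegral.integral_const_mul]
    refine integral_congr fun y hy => hfD _ (hsub ⟨by simpa using hx, by simpa using hy⟩)
  simp only at hS
  rw [hR] at hS
  have hre : ∀ x y : ℝ, (x + y * Complex.I : ℂ).re = x := fun x y => by simp
  have him : ∀ x y : ℝ, (x + y * Complex.I : ℂ).im = y := fun x y => by simp
  have side : ∀ y : ℝ, |y| = θ → ‖∫ x : ℝ in a..b, f (x + y * Complex.I)‖ ≤ C₁ * (1 / κ) := by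
    intro y hyθ
    refine (norm_integral_le_of_norm_le (g := fun x => C₁ * (Real.exp x *
      Real.exp (-κ * Real.exp x))) hb (Eventually.of_forall fun x hx => ?_)
      (Continuous.intervalIntegrable (by fun_prop) _ _)).trans ?_
    · simp only [hf]
      rw [norm_mul, norm_psi, hre, him]
      refine (mul_le_mul_of_nonneg_right (hC₁ _ (hmem x y hx.1.le hyθ.le))
        (by positivity)).trans ?_
      rw [hh, hre, him, mul_assoc, mul_left_comm (Real.exp _), ← Real.exp_add]
      refine mul_le_mul_of_nonneg_left (mul_le_mul_of_nonneg_left (Real.exp_le_exp.2 ?_)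
        (Real.exp_pos _).le) h10
      have c1 := cos_le_chi (hyθ.le.trans h1)
      have c2 := half_le_cos (hyθ.le.trans h1)
      have c3 := chi_le_one y
      have c4 : y ^ 2 = θ ^ 2 := by rw [← sq_abs y, hyθ]
      have c5 : -(1 / 4 - κ) * chi y + (1 / 4 - ε) * Real.cos y ≤ -κ := by nlinarith
      nlinarith [Real.exp_pos x]
    · rw [intervalIntegral.integral_const_mul]
      exact mul_le_mul_of_nonneg_left (int_ee_le hκ0 a b) h10
  have left : ‖∫ y : ℝ in (-θ)..θ, f (a + y * Complex.I)‖ ≤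
      C₂ * (Real.exp a * Real.exp (Real.exp a / 4)) * |θ - -θ| := by
    refine norm_integral_le_of_norm_le_const fun y hy' => ?_
    simp only [hf]
    rw [norm_mul, norm_psi, hre, him]
    have c1 := hC₂ _ (hmem a y le_rfl (hy y hy'))
    rw [sub_self, neg_zero, zero_mul, Real.exp_zero, mul_one] at c1
    refine mul_le_mul c1 (mul_le_mul_of_nonneg_left (Real.exp_le_exp.2 ?_) (Real.exp_pos _).le)
      (by positivity) h20
    have c2 := half_le_cos ((hy y hy').trans h1)
    have c3 := mul_le_mul_of_nonneg_left (Real.cos_le_one y) (Real.exp_pos a).le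
    have c4 : 0 ≤ ε * (Real.exp a * Real.cos y) := by have := Real.exp_pos a; positivity
    nlinarith
  have right : ‖∫ y : ℝ in (-θ)..θ, f (b + y * Complex.I)‖ ≤
      C₃ * (Real.exp b * Real.exp (-(ε / 4) * Real.exp b)) * |θ - -θ| := by
    refine norm_integral_le_of_norm_le_const fun y hy' => ?_
    simp only [hf]
    rw [norm_mul, norm_psi, hre, him]
    refine (mul_le_mul_of_nonneg_right (hC₃ _ (hmem b y hb (hy y hy'))) (by positivity)).trans ?_
    rw [hh, hre, him, mul_assoc, mul_left_comm (Real.exp _), ← Real.exp_add]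
    refine mul_le_mul_of_nonneg_left (mul_le_mul_of_nonneg_left (Real.exp_le_exp.2 ?_)
      (Real.exp_pos _).le) h30
    have c1 := cos_le_chi ((hy y hy').trans h1)
    have c2 := half_le_cos ((hy y hy').trans h1)
    have c5 : -(1 / 4 - ε / 2) * chi y + (1 / 4 - ε) * Real.cos y ≤ -(ε / 4) := by
      nlinarith [sq_nonneg y]
    nlinarith [Real.exp_pos b]
  have s1 := side (-θ) (by rw [abs_neg, abs_of_pos h0])
  have s2 := side θ (abs_of_pos h0)
  have hn := congrArg norm hS
  rw [norm_mul, Complex.norm_I, one_mul] at hn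
  rw [← hn]
  refine (norm_sub_le _ _).trans ((add_le_add ((norm_add_le _ _).trans
    (add_le_add (norm_sub_le _ _) le_rfl)) le_rfl).trans ?_)
  rw [norm_smul, norm_smul, Complex.norm_I, one_mul, one_mul]
  linarith

end Crest.Agent.N250.St

end
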