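import Mathlib

/-!
# Row 250, block B2 (helper47): ties between ends.  On a generic ray the Stokes terms
`exp (P_j(ξ))`, `P_j` real polynomials, are comparable and the top class adds up.
-/

set_option autoImplicit false
open Set Filter Topology Polynomial Complex

noncomputable section

namespace Crest.Agent.N250.St

theorem exists_generic {θ₁ θ₂ : ℝ} (h : θ₁ < θ₂) :
    ∃ θ ∈ Ioo θ₁ θ₂, ∀ k : ℕ, Real.cos (k * θ) ≠ 0 := by
  have hc : (range fun p : ℕ × ℤ => ((2 * p.2 + 1) * Real.pi / 2) / p.1).Countable :=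
    countable_range _
  obtain ⟨θ, hθ, hn⟩ : ∃ θ ∈ Ioo θ₁ θ₂,
      θ ∉ range fun p : ℕ × ℤ => ((2 * p.2 + 1) * Real.pi / 2) / p.1 := by
    by_contra hcon
    push Not at hcon
    have := hc.mono (s₁ := Ioo θ₁ θ₂) hcon
    exact absurd (Cardinal.le_aleph0_iff_set_countable.2 this)
      (by rw [Cardinal.mk_Ioo_real h]; exact Cardinal.aleph0_lt_continuum.not_ge)
  refine ⟨θ, hθ, fun k hk => ?_⟩
  rcases Nat.eq_zero_or_pos k with rfl | hk0
  · simp at hk
  obtain ⟨n, hn'⟩ := Real.cos_eq_zero_iff.1 hk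
  refine hn ⟨(k, n), ?_⟩
  have : (k : ℝ) ≠ 0 := by positivity
  simp only
  rw [← hn']
  field_simp

/-- real part of a real polynomial along the ray of argument `θ` -/
def ray (θ : ℝ) (Q : ℝ[X]) : ℝ[X] := Q.sum fun k b => monomial k (b * Real.cos (k * θ))

theorem coeff_ray (θ : ℝ) (Q : ℝ[X]) (k : ℕ) :
    (ray θ Q).coeff k = Q.coeff k * Real.cos (k * θ) := by
  rw [ray, Polynomial.sum, finsetSum_coeff]
  simp only [coeff_monomial]
  rw [Finset.sum_ite_eq']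
  split_ifs with h
  · rfl
  · rw [notMem_support_iff.1 h, zero_mul]

theorem eval_ray (θ ρ : ℝ) (Q : ℝ[X]) :
    (ray θ Q).eval ρ = (aeval ((ρ : ℂ) * exp (θ * I)) Q).re := by
  rw [ray, Polynomial.sum, eval_finsetSum, aeval_def, eval₂_eq_sum, Polynomial.sum, re_sum]
  refine Finset.sum_congr rfl fun k _ => ?_
  have h1 : (k : ℂ) * (θ * I) = ((k * θ : ℝ) : ℂ) * I := by push_cast; ring
  rw [eval_monomial, mul_pow, ← Complex.exp_nat_mul, h1, ← ofReal_pow, Complex.coe_algebraMap,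
    re_ofReal_mul, re_ofReal_mul, exp_ofReal_mul_I_re]
  ring

/-- **Ties.** -/
theorem ties {D : Type*} [Fintype D] [Nonempty D] (P : D → ℝ[X]) {θ₁ θ₂ : ℝ} (h : θ₁ < θ₂) :
    ∃ θ ∈ Ioo θ₁ θ₂, ∃ (j₀ : D) (lam : D → ℝ), (∀ j, 0 ≤ lam j) ∧ lam j₀ = 1 ∧
      ∀ j, Tendsto (fun ρ : ℝ => exp (aeval ((ρ : ℂ) * exp (θ * I)) (P j) -
        aeval ((ρ : ℂ) * exp (θ * I)) (P j₀))) atTop (𝓝 (lam j : ℂ)) := by
  obtain ⟨θ, hθ, hg⟩ := exists_generic h
  set U : Ultrafilter ℝ := Ultrafilter.of atTop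
  have hU : (U : Filter ℝ) ≤ atTop := Ultrafilter.of_le _
  have h1 : ∀ᶠ ρ : ℝ in U, ∃ j₀, ∀ j, (aeval ((ρ : ℂ) * exp (θ * I)) (P j)).re ≤
      (aeval ((ρ : ℂ) * exp (θ * I)) (P j₀)).re :=
    Eventually.of_forall fun ρ => Finite.exists_max _
  obtain ⟨j₀, hj₀⟩ := Ultrafilter.eventually_exists_iff.1 h1
  have key : ∀ j, ∃ l : ℝ, 0 ≤ l ∧ (j = j₀ → l = 1) ∧
      Tendsto (fun ρ : ℝ => exp (aeval ((ρ : ℂ) * exp (θ * I)) (P j) -
        aeval ((ρ : ℂ) * exp (θ * I)) (P j₀))) atTop (𝓝 (l : ℂ)) := by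
    intro j
    simp only [← map_sub]
    set Q := P j - P j₀ with hQ
    by_cases hd : 0 < (ray θ Q).degree
    · refine ⟨0, le_rfl, fun hj => ?_, ?_⟩
      · subst hj
        simp [hQ, ray] at hd
      have hl : (ray θ Q).leadingCoeff ≤ 0 := by
        by_contra hl
        have h2 := ((ray θ Q).tendsto_atTop_of_leadingCoeff_nonneg hd
          (not_le.1 hl).le).mono_left hU
        obtain ⟨ρ, h3, h4⟩ := ((h2.eventually_gt_atTop 0).and hj₀).exists
        rw [eval_ray, hQ, map_sub, sub_re] at h3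
        linarith [h4 j]
      have h2 := (ray θ Q).tendsto_atBot_of_leadingCoeff_nonpos hd hl
      rw [ofReal_zero, tendsto_zero_iff_norm_tendsto_zero]
      simp only [norm_exp, ← eval_ray]
      exact Real.tendsto_exp_atBot.comp h2
    · have h2 : Q.degree ≤ 0 := by
        rw [degree_le_iff_coeff_zero]
        intro m hm
        have h3 : (ray θ Q).coeff m = 0 := coeff_eq_zero_of_degree_lt ((not_lt.1 hd).trans_lt hm)
        rw [coeff_ray] at h3
        exact (mul_eq_zero.1 h3).resolve_right (hg m)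
      refine ⟨Real.exp (Q.coeff 0), (Real.exp_pos _).le, fun hj => ?_, ?_⟩
      · subst hj
        simp [hQ]
      rw [eq_C_of_degree_le_zero h2]
      simp
  choose lam h1 h2 h3 using key
  exact ⟨θ, hθ, j₀, lam, h1, h2 j₀ rfl, h3⟩

/-- the top class adds up -/
theorem top_adds {D ι : Type*} [Fintype D] {l : Filter ι} {E : D → ι → ℂ} {J : ι → ℂ} {j₀ : D}
    {lam : D → ℝ} (h0 : ∀ j, 0 ≤ lam j) (h1 : lam j₀ = 1) (hE : ∀ᶠ x in l, E j₀ x ≠ 0)
    (hl : ∀ j, Tendsto (fun x => E j x / E j₀ x) l (𝓝 (lam j : ℂ)))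
    (hJ : ∀ᶠ x in l, ‖J x - ∑ j, E j x‖ ≤ 1 / 2 * ∑ j, ‖E j x‖) :
    ∃ C, 0 ≤ C ∧ ∀ᶠ x in l, ∀ j, ‖E j x‖ ≤ C * ‖J x‖ := by
  set L := ∑ j, lam j with hL
  have hL1 : 1 ≤ L := h1 ▸ Finset.single_le_sum (fun j _ => h0 j) (Finset.mem_univ j₀)
  have hn : Tendsto (fun x => ∑ j, ‖E j x / E j₀ x‖) l (𝓝 L) := by
    refine tendsto_finsetSum _ fun j _ => ?_
    have := (hl j).norm
    rwa [norm_real, Real.norm_of_nonneg (h0 j)] at this
  have hs : Tendsto (fun x => ‖∑ j, E j x / E j₀ x‖) l (𝓝 L) := by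
    have := (tendsto_finsetSum Finset.univ fun j _ => hl j).norm
    rwa [← ofReal_sum, norm_real, Real.norm_of_nonneg (by linarith)] at this
  refine ⟨4 * (L + 1), by linarith, ?_⟩
  filter_upwards [hE, hJ, hn.eventually_lt_const (show L < L + 1 / 6 by linarith),
    hs.eventually_const_lt (show L - 1 / 6 < L by linarith)] with x hx hJx h2 h3 j
  have hp : 0 < ‖E j₀ x‖ := norm_pos_iff.2 hx
  simp only [norm_div] at h2
  rw [← Finset.sum_div, div_lt_iff₀ hp] at h2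
  rw [← Finset.sum_div, norm_div, lt_div_iff₀ hp] at h3
  have h4 : ‖E j x‖ ≤ ∑ j, ‖E j x‖ :=
    Finset.single_le_sum (f := fun j => ‖E j x‖) (fun j _ => norm_nonneg _) (Finset.mem_univ j)
  have h5 : ‖∑ j, E j x‖ ≤ ‖J x‖ + ‖J x - ∑ j, E j x‖ := by
    have := norm_sub_le (J x) (J x - ∑ j, E j x)
    rwa [sub_sub_cancel] at this
  have h6 : ‖E j₀ x‖ ≤ 4 * ‖J x‖ := by nlinarith
  nlinarith [norm_nonneg (J x)]

theorem div_pow_exp (q : ℕ) : ∀ B : ℝ[X], ∃ P : ℝ[X],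
    Tendsto (fun t : ℂ => aeval t B / t ^ q - aeval t⁻¹ P) (𝓝[≠] 0) (𝓝 0) := by
  induction q with
  | zero =>
    intro B
    refine ⟨C (B.coeff 0), ?_⟩
    have h : Continuous fun t : ℂ => aeval t B - (B.coeff 0 : ℂ) := by fun_prop
    have h2 := (h.tendsto 0).mono_left (nhdsWithin_le_nhds (s := {0}ᶜ))
    rw [← coeff_zero_eq_aeval_zero'] at h2
    simpa using h2
  | succ q ih =>
    intro B
    obtain ⟨P, hP⟩ := ih B.divX
    refine ⟨monomial (q + 1) (B.coeff 0) + P, hP.congr' ?_⟩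
    filter_upwards [self_mem_nhdsWithin] with t ht
    have ht' : t ≠ 0 := ht
    conv_rhs => rw [← divX_mul_X_add B]
    simp only [map_add, map_mul, aeval_X, aeval_C, aeval_monomial, Complex.coe_algebraMap,
      coeff_add, mul_coeff_zero, coeff_X_zero, mul_zero, coeff_C_zero, zero_add, inv_pow]
    field_simp
    ring

/-- `1/(t^q A(t)) = P(1/t) + o(1)` with a real polynomial `P` -/
theorem inv_exp (q : ℕ) {A : ℝ[X]} (hA : A.coeff 0 ≠ 0) : ∃ P : ℝ[X],
    Tendsto (fun t : ℂ => (t ^ q * aeval t A)⁻¹ - aeval t⁻¹ P) (𝓝[≠] 0) (𝓝 0) := by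
  have hc : IsCoprime A (X ^ (q + 1)) := by
    refine IsCoprime.pow_right ?_
    refine ⟨C (A.coeff 0)⁻¹, -(C (A.coeff 0)⁻¹ * A.divX), ?_⟩
    have : C (A.coeff 0)⁻¹ * C (A.coeff 0) = (1 : ℝ[X]) := by rw [← C_mul, inv_mul_cancel₀ hA, C_1]
    linear_combination this - C (A.coeff 0)⁻¹ * divX_mul_X_add A
  obtain ⟨B, D, hBD⟩ := hc
  obtain ⟨P, hP⟩ := div_pow_exp q B
  refine ⟨P, ?_⟩
  have hA0 : aeval (0 : ℂ) A ≠ 0 := by
    rw [← coeff_zero_eq_aeval_zero']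
    simpa using hA
  have hcA : Continuous fun t : ℂ => aeval t A := by fun_prop
  have h1 : Tendsto (fun t : ℂ => aeval t D * t / aeval t A) (𝓝[≠] 0) (𝓝 0) := by
    have h : ContinuousAt (fun t : ℂ => aeval t D * t / aeval t A) 0 :=
      ContinuousAt.div (by fun_prop) hcA.continuousAt hA0
    simpa using h.tendsto.mono_left (nhdsWithin_le_nhds (s := {0}ᶜ))
  have h2 := hP.add h1
  rw [add_zero] at h2
  refine h2.congr' ?_
  filter_upwards [self_mem_nhdsWithin,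
    nhdsWithin_le_nhds (hcA.continuousAt.eventually_ne hA0)] with t ht htA
  have ht' : t ≠ 0 := ht
  have h3 := congrArg (aeval t) hBD
  simp only [map_add, map_mul, map_pow, aeval_X, map_one] at h3
  field_simp
  linear_combination h3

end Crest.Agent.N250.St

end
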