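import Crest.Agent.N250.St.PL
import Crest.Agent.N250.St.Ties
import Crest.Agent.N250.W.Flat

/-!
# Row 250, block B2 (helper47): the Stokes contradiction, abstract form.
-/

set_option autoImplicit false
open Set Filter Topology Polynomial

noncomputable section

namespace Crest.Agent.N250.St
open W

/-- **Stokes contradiction.**  On every line `im w = y`, `|y| < ε`, the jump is (up to a relative
error `1/2`) a sum of terms `E j ~ μ j * k * exp (P j (e^{w/q + iθ₀}))`, `μ j > 0`, `P j` real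
polynomials, one of which has rate at most `c`. -/
theorem stokes {Hp Hm : ℂ → ℂ} {R ε c L : ℝ} (h : Ray Hp Hm R ε c L) (hε : 0 < ε)
    (hε2 : ε < Real.pi / 2) (hc : 0 < c) (hL : c < L) {D : Type*} [Fintype D] (P : D → ℝ[X])
    {q : ℝ} (hq : 0 < q) (θ₀ : ℝ) (E : D → ℂ → ℂ) (k : ℂ → ℂ) (μ : D → ℝ) (hμ : ∀ j, 0 < μ j)
    (hE : ∀ y ∈ Ioo (-ε) ε, ∀ j, Tendsto (fun x : ℝ => E j (x + y * Complex.I) /
      (k (x + y * Complex.I) * Complex.exp (aeval ((Real.exp (x / q) : ℂ) *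
        Complex.exp ((y / q + θ₀ : ℝ) * Complex.I)) (P j)))) atTop (𝓝 (μ j : ℂ)))
    (j₁ : D) (hlow : ∀ y ∈ Ioo (-ε) ε, ∀ c' > c, ∀ᶠ x : ℝ in atTop,
      Real.exp (-c' * Real.exp x) ≤ ‖E j₁ (x + y * Complex.I)‖)
    (hJ : ∀ y ∈ Ioo (-ε) ε, ∀ᶠ x : ℝ in atTop,
      ‖Hp (x + y * Complex.I) - Hm (x + y * Complex.I) - ∑ j, E j (x + y * Complex.I)‖ ≤
        1 / 2 * ∑ j, ‖E j (x + y * Complex.I)‖) : False := by
  have : Nonempty D := ⟨j₁⟩
  obtain ⟨c₁, ε₁, hc₁, hε₁, hε₁', hR⟩ := h.gain hε hε2 hc hL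
  obtain ⟨C₁, hC₁0, hC₁⟩ := hR.nonneg
  obtain ⟨θ, hθ, j₀, lam, l0, l1, hl⟩ := ties P (θ₁ := -ε₁ / q + θ₀) (θ₂ := ε₁ / q + θ₀)
    (by have := div_pos hε₁ hq; rw [neg_div]; linarith)
  set y := q * (θ - θ₀) with hy
  have hyθ : y / q + θ₀ = θ := by rw [hy]; field_simp; ring
  have hy1 : y ∈ Ioo (-ε₁) ε₁ := by
    have h1 := (div_lt_iff₀ hq).1 (show -ε₁ / q < θ - θ₀ by linarith [hθ.1])
    have h2 := (lt_div_iff₀ hq).1 (show θ - θ₀ < ε₁ / q by linarith [hθ.2])
    exact ⟨by linarith, by linarith⟩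
  have hy2 : y ∈ Ioo (-ε) ε := ⟨by linarith [hy1.1], by linarith [hy1.2]⟩
  have hE' := hE y hy2
  simp only [hyθ] at hE'
  have hρ : Tendsto (fun x : ℝ => Real.exp (x / q)) atTop atTop :=
    Real.tendsto_exp_atTop.comp (tendsto_id.atTop_div_const hq)
  have hμ0 : (μ j₀ : ℂ) ≠ 0 := by exact_mod_cast (hμ j₀).ne'
  have hne := (hE' j₀).eventually_ne hμ0
  obtain ⟨C, hC0, hC⟩ := top_adds (l := atTop) (E := fun j (x : ℝ) => E j (x + y * Complex.I))
    (J := fun x : ℝ => Hp (x + y * Complex.I) - Hm (x + y * Complex.I)) (j₀ := j₀)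
    (lam := fun j => μ j / μ j₀ * lam j)
    (fun j => mul_nonneg (div_pos (hμ j) (hμ j₀)).le (l0 j))
    (by simp only [l1, mul_one]; exact div_self (hμ j₀).ne')
    (hne.mono fun x hx h0 => hx (by simp only [h0, zero_div]))
    (fun j => by
      have h1 := ((hE' j).div (hE' j₀) hμ0).mul ((hl j).comp hρ)
      push_cast
      refine h1.congr' (hne.mono fun x hx => ?_)
      have hk : k (x + y * Complex.I) ≠ 0 := fun h0 => hx (by simp [h0])
      have hE0 : E j₀ (x + y * Complex.I) ≠ 0 := fun h0 => hx (by simp [h0])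
      simp only [Pi.div_apply, Function.comp, Complex.exp_sub]
      field_simp)
    (hJ y hy2)
  set c' := (c + c₁) / 2 with hc'
  have h3 : Tendsto (fun x : ℝ => C * C₁ * Real.exp (-(c₁ - c') * Real.exp x)) atTop (𝓝 0) := by
    have h4 : Tendsto (fun x : ℝ => -(c₁ - c') * Real.exp x) atTop atBot :=
      Real.tendsto_exp_atTop.const_mul_atTop_of_neg (by linarith)
    simpa using (Real.tendsto_exp_atBot.comp h4).const_mul (C * C₁)
  obtain ⟨x, h4, h5, h6, h7⟩ := (hC.and ((hlow y hy2 c' (by linarith)).and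
    ((h3.eventually_lt_const one_pos).and (eventually_gt_atTop R)))).exists
  have h8 := hC₁ (x + y * Complex.I) ⟨by simpa using h7, by simpa using hy1.1, by simpa using hy1.2⟩
  simp only [Complex.add_re, Complex.ofReal_re, Complex.mul_re, Complex.I_re, Complex.ofReal_im,
    Complex.I_im, mul_zero, mul_one, sub_self, add_zero] at h8
  have h9 := h5.trans ((h4 j₁).trans (mul_le_mul_of_nonneg_left h8 hC0))
  have h10 : Real.exp (-c₁ * Real.exp x) =
      Real.exp (-(c₁ - c') * Real.exp x) * Real.exp (-c' * Real.exp x) := by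
    rw [← Real.exp_add]; ring_nf
  rw [h10] at h9
  nlinarith [Real.exp_pos (-c' * Real.exp x)]

end Crest.Agent.N250.St

end
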