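import Crest.Agent.N250.W.Wat

/-!
# Row 250, block B2 (helper47): the Phragmén–Lindelöf bootstrap at one Stokes ray.
-/

set_option autoImplicit false
open Set Metric Filter Topology Real

noncomputable section

namespace Crest.Agent.N250.St
open W

variable {E : Type*} [NormedAddCommGroup E]

/-- `H` decays at rate `φ (im w)` on `U` -/
def Rate (U : Set ℂ) (H : ℂ → E) (φ : ℝ → ℝ) : Prop :=
  ∃ C, ∀ w ∈ U, ‖H w‖ ≤ C * exp (-φ w.im * exp w.re)

theorem Rate.nonneg {U : Set ℂ} {H : ℂ → E} {φ : ℝ → ℝ} (h : Rate U H φ) :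
    ∃ C, 0 ≤ C ∧ ∀ w ∈ U, ‖H w‖ ≤ C * exp (-φ w.im * exp w.re) := by
  obtain ⟨C, hC⟩ := h
  exact ⟨|C|, abs_nonneg _, fun w hw =>
    (hC w hw).trans (mul_le_mul_of_nonneg_right (le_abs_self _) (exp_pos _).le)⟩

theorem Rate.mono {U V : Set ℂ} {H : ℂ → E} {φ ψ : ℝ → ℝ} (h : Rate U H φ) (hV : V ⊆ U)
    (hψ : ∀ w ∈ V, ψ w.im ≤ φ w.im) : Rate V H ψ := by
  obtain ⟨C, h0, hC⟩ := h.nonneg
  refine ⟨C, fun w hw => (hC w (hV hw)).trans (mul_le_mul_of_nonneg_left (exp_le_exp.2 ?_) h0)⟩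
  nlinarith [hψ w hw, exp_pos w.re]

theorem Rate.sub' {U V : Set ℂ} {H : ℂ → E} {φ : ℝ → ℝ} (h : Rate U H φ) (hV : V ⊆ U) :
    Rate V H φ := h.mono hV fun _ _ => le_rfl

theorem Rate.cover {U V W : Set ℂ} {H : ℂ → E} {φ : ℝ → ℝ} (h : Rate U H φ) (h' : Rate V H φ)
    (hW : ∀ w ∈ W, w ∈ U ∨ w ∈ V) : Rate W H φ := by
  obtain ⟨C, hC⟩ := h
  obtain ⟨C', hC'⟩ := h'
  refine ⟨max C C', fun w hw => (hW w hw).elim (fun h => (hC w h).trans ?_)
    fun h => (hC' w h).trans ?_⟩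
  · exact mul_le_mul_of_nonneg_right (le_max_left _ _) (exp_pos _).le
  · exact mul_le_mul_of_nonneg_right (le_max_right _ _) (exp_pos _).le

theorem Rate.add {U : Set ℂ} {H K : ℂ → E} {φ : ℝ → ℝ} (h : Rate U H φ) (h' : Rate U K φ) :
    Rate U (fun w => H w + K w) φ := by
  obtain ⟨C, hC⟩ := h
  obtain ⟨C', hC'⟩ := h'
  exact ⟨C + C', fun w hw => (norm_add_le _ _).trans (by linarith [hC w hw, hC' w hw])⟩

theorem Rate.sub {U : Set ℂ} {H K : ℂ → E} {φ : ℝ → ℝ} (h : Rate U H φ) (h' : Rate U K φ) :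
    Rate U (fun w => H w - K w) φ := by
  obtain ⟨C, hC⟩ := h
  obtain ⟨C', hC'⟩ := h'
  exact ⟨C + C', fun w hw => (norm_sub_le _ _).trans (by linarith [hC w hw, hC' w hw])⟩

variable [NormedSpace ℂ E]

/-- one Phragmén–Lindelöf step with the real weight `exp (B e^w)` -/
theorem plStep {H : ℂ → E} {R θ η B c L K : ℝ} (hη : 0 < η) (hc : 0 < c) (hB : 0 ≤ B)
    (hL : B ≤ L) (hC : Rate (HS R (θ - π / 2) (θ + π / 2)) H fun y => B * cos y + c)
    (hA : Apx (HS R (θ - π / 2) (θ + π / 2)) η H fun w => K * exp (-L * exp w.re)) :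
    Rate (HS R (θ - π / 2) (θ + π / 2)) H fun y => (L - B) * cos (y - θ) + B * cos y := by
  obtain ⟨C, hC⟩ := hC
  have hn : ∀ (w : ℂ) (v : E), ‖Complex.exp (B * Complex.exp w) • v‖ =
      exp (B * cos w.im * exp w.re) * ‖v‖ := fun w v => by
    rw [norm_smul, Complex.norm_exp, Complex.re_ofReal_mul, Complex.exp_re]
    ring_nf
  obtain ⟨C', -, h1⟩ := relW1 (H := fun w => Complex.exp (B * Complex.exp w) • H w) (R := R)
    (θ := θ) (c := c) (C := C) (Λ := L - B) (ε := |K|) hη hc (by linarith)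
    (fun w hw => by
      rw [hn]
      refine (mul_le_mul_of_nonneg_left (hC w hw) (exp_pos _).le).trans (le_of_eq ?_)
      rw [mul_left_comm, ← exp_add]
      ring_nf)
    (fun w₀ r hr hrη hs => by
      obtain ⟨g, hg, hge⟩ := hA w₀ r hr hrη hs
      refine ⟨fun w => Complex.exp (B * Complex.exp w) • g w,
        (Differentiable.diffContOnCl (by fun_prop)).smul hg, fun w hw => ?_⟩
      rw [← smul_sub, hn]
      refine (mul_le_mul_of_nonneg_left ((hge w hw).trans (mul_le_mul_of_nonneg_right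
        (le_abs_self _) (exp_pos _).le)) (exp_pos _).le).trans ?_
      rw [mul_left_comm, ← exp_add]
      refine mul_le_mul_of_nonneg_left (exp_le_exp.2 ?_) (abs_nonneg _)
      nlinarith [mul_le_mul_of_nonneg_left (cos_le_one w.im) (mul_nonneg hB (exp_pos w.re).le)])
  refine ⟨C', fun w hw => ?_⟩
  have h2 := h1 w hw
  rw [hn] at h2
  have h3 := mul_le_mul_of_nonneg_left h2 (exp_pos (-(B * cos w.im * exp w.re))).le
  rw [← mul_assoc, ← exp_add, neg_add_cancel, exp_zero, one_mul, mul_left_comm, ← exp_add] at h3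
  refine h3.trans (le_of_eq ?_)
  ring_nf

omit [NormedSpace ℂ E] in
/-- margin: rate `B cos` and rate `ρ > 0` give rate `B' cos + c` for `B' < B` -/
theorem Rate.margin {U : Set ℂ} {H : ℂ → E} {B B' ρ : ℝ} (hρ : 0 < ρ) (h0 : 0 ≤ B') (hB : B' < B)
    (h1 : Rate U H fun y => B * cos y) (h2 : Rate U H fun _ => ρ) :
    ∃ c, 0 < c ∧ Rate U H fun y => B' * cos y + c := by
  set s := ρ / (2 * (B' + 1)) with hs
  have hs0 : 0 < s := by positivity
  have hs1 : s * (2 * (B' + 1)) = ρ := div_mul_cancel₀ _ (by positivity)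
  refine ⟨min (ρ / 2) ((B - B') * s), lt_min (by linarith) (mul_pos (by linarith) hs0), ?_⟩
  refine Rate.cover (U := {w ∈ U | s ≤ cos w.im}) (V := {w ∈ U | cos w.im ≤ s})
    (h1.mono (fun w hw => hw.1) fun w hw => ?_) (h2.mono (fun w hw => hw.1) fun w hw => ?_)
    fun w hw => (le_total s (cos w.im)).imp (fun h => ⟨hw, h⟩) fun h => ⟨hw, h⟩
  · have := min_le_right (ρ / 2) ((B - B') * s)
    nlinarith [hw.2]
  · have := min_le_left (ρ / 2) ((B - B') * s)
    nlinarith [hw.2]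

/-- the data at one Stokes ray (`im w = 0`): the two continuations decay at some rate, are
holomorphic up to errors of rate `L`, and differ by a term of rate `c' cos y` for all `c' < c` -/
structure Ray (Hp Hm : ℂ → E) (R ε c L : ℝ) : Prop where
  rp : ∃ ρ, 0 < ρ ∧ Rate (HS R (ε - π) ε) Hp fun _ => ρ
  rm : ∃ ρ, 0 < ρ ∧ Rate (HS R (-ε) (π - ε)) Hm fun _ => ρ
  ap : ∃ η K, 0 < η ∧ Apx (HS R (ε - π) ε) η Hp fun w => K * exp (-L * exp w.re)
  am : ∃ η K, 0 < η ∧ Apx (HS R (-ε) (π - ε)) η Hm fun w => K * exp (-L * exp w.re)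
  jmp : ∀ c' < c, Rate (HS R (-ε) ε) (fun w => Hp w - Hm w) fun y => c' * cos y

variable {Hp Hm : ℂ → E} {R ε c L : ℝ}

theorem Ray.step (h : Ray Hp Hm R ε c L) {B B' : ℝ} (h0 : 0 ≤ B') (hB : B' < B) (hL : B' ≤ L)
    (hp : Rate (HS R (ε - π) ε) Hp fun y => B * cos y)
    (hm : Rate (HS R (-ε) (π - ε)) Hm fun y => B * cos y) :
    (Rate (HS R (ε - π) ε) Hp fun y => (L - B') * sin (ε - y) + B' * cos y) ∧
      Rate (HS R (-ε) (π - ε)) Hm fun y => (L - B') * sin (ε + y) + B' * cos y := by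
  obtain ⟨ρ, hρ, hr⟩ := h.rp
  obtain ⟨ρ', hρ', hr'⟩ := h.rm
  obtain ⟨η, K, hη, hA⟩ := h.ap
  obtain ⟨η', K', hη', hA'⟩ := h.am
  obtain ⟨c₁, hc₁, h1⟩ := Rate.margin hρ h0 hB hp hr
  obtain ⟨c₂, hc₂, h2⟩ := Rate.margin hρ' h0 hB hm hr'
  have e1 : ε - π = ε - π / 2 - π / 2 := by ring
  have e2 : ε = ε - π / 2 + π / 2 := by ring
  have e3 : -ε = π / 2 - ε - π / 2 := by ring
  have e4 : π - ε = π / 2 - ε + π / 2 := by ring
  have f1 : HS R (ε - π) ε = HS R (ε - π / 2 - π / 2) (ε - π / 2 + π / 2) := by rw [← e1, ← e2]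
  have f2 : HS R (-ε) (π - ε) = HS R (π / 2 - ε - π / 2) (π / 2 - ε + π / 2) := by
    rw [← e3, ← e4]
  constructor
  · rw [f1] at h1 hA ⊢
    refine (plStep hη hc₁ h0 hL h1 hA).mono subset_rfl fun w _ => le_of_eq ?_
    rw [show w.im - (ε - π / 2) = π / 2 - (ε - w.im) by ring, cos_pi_div_two_sub]
  · rw [f2] at h2 hA' ⊢
    refine (plStep hη' hc₂ h0 hL h2 hA').mono subset_rfl fun w _ => le_of_eq ?_
    rw [show w.im - (π / 2 - ε) = (ε + w.im) - π / 2 by ring, cos_sub_pi_div_two]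

theorem Ray.iter (h : Ray Hp Hm R ε c L) (hε : 0 < ε) (hε2 : ε < π / 2) (hc : 0 < c) (hL : c < L)
    (n : ℕ) : ∀ B, 0 ≤ B → B < c → B ≤ n * ((L - c) * sin ε / 2) →
      (Rate (HS R (ε - π) ε) Hp fun y => B * cos y) ∧
        Rate (HS R (-ε) (π - ε)) Hm fun y => B * cos y := by
  have hs : 0 < sin ε := sin_pos_of_pos_of_lt_pi hε (by linarith [pi_pos])
  have hcs : 0 < cos ε := cos_pos_of_mem_Ioo ⟨by linarith, hε2⟩
  have hcy : ∀ y, -ε < y → y < ε → 0 ≤ cos y := fun y h1 h2 =>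
    cos_nonneg_of_mem_Icc ⟨by linarith, by linarith⟩
  set d := (L - c) * sin ε / 2 with hd
  have hd0 : 0 < d := by have : 0 < L - c := by linarith
                         positivity
  obtain ⟨ρ, hρ, hr⟩ := h.rp
  obtain ⟨ρ', hρ', hr'⟩ := h.rm
  induction n with
  | zero =>
    intro B h0 _ hB
    have : B = 0 := by simpa using le_antisymm (by simpa using hB) h0
    subst this
    exact ⟨hr.mono subset_rfl fun w _ => by simpa using hρ.le,
      hr'.mono subset_rfl fun w _ => by simpa using hρ'.le⟩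
  | succ n ih =>
    intro B h0 hBc hB
    -- previous level
    obtain ⟨B₀, B', a0, a1, a2, a3, a4⟩ : ∃ B₀ B', 0 ≤ B' ∧ B' < B₀ ∧ B' < c ∧
        B ≤ B' + 2 * d ∧ (Rate (HS R (ε - π) ε) Hp fun y => B₀ * cos y) ∧
          Rate (HS R (-ε) (π - ε)) Hm fun y => B₀ * cos y := by
      by_cases hb : B ≤ 2 * d
      · refine ⟨min ρ ρ', 0, le_rfl, lt_min hρ hρ', hc, by linarith,
          hr.mono subset_rfl fun w _ => ?_, hr'.mono subset_rfl fun w _ => ?_⟩
        · nlinarith [cos_le_one w.im, min_le_left ρ ρ', lt_min hρ hρ']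
        · nlinarith [cos_le_one w.im, min_le_right ρ ρ', lt_min hρ hρ']
      · push_cast at hB
        exact ⟨B - d, B - 2 * d, by linarith, by linarith, by linarith, by linarith,
          ih (B - d) (by linarith) (by linarith) (by linarith)⟩
    obtain ⟨h1, h2⟩ := h.step a0 a1 (by linarith) a4.1 a4.2
    have hj := h.jmp B hBc
    have hLB : L - c ≤ L - B' := by linarith
    have k1 : Rate {w ∈ HS R (ε - π) ε | w.im ≤ 0} Hp fun y => B * cos y := by
      refine Rate.cover (U := {w ∈ HS R (ε - π) ε | w.im ≤ 0 ∧ 0 ≤ cos w.im})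
        (V := {w ∈ HS R (ε - π) ε | cos w.im ≤ 0}) (h1.mono (fun w hw => hw.1) fun w hw => ?_)
        (hr.mono (fun w hw => hw.1) fun w hw => by nlinarith [hw.2])
        fun w hw => (le_total 0 (cos w.im)).imp (fun h => ⟨hw.1, hw.2, h⟩) fun h => ⟨hw.1, h⟩
      have b1 : sin w.im ≤ 0 :=
        sin_nonpos_of_nonpos_of_neg_pi_le hw.2.1 (by linarith [hw.1.2.1])
      have b2 : sin ε * cos w.im ≤ sin (ε - w.im) := by rw [sin_sub]; nlinarith
      have b3 := mul_le_mul hLB b2 (mul_nonneg hs.le hw.2.2) (by linarith)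
      nlinarith [hw.2.2]
    have k2 : Rate {w ∈ HS R (-ε) (π - ε) | 0 ≤ w.im} Hm fun y => B * cos y := by
      refine Rate.cover (U := {w ∈ HS R (-ε) (π - ε) | 0 ≤ w.im ∧ 0 ≤ cos w.im})
        (V := {w ∈ HS R (-ε) (π - ε) | cos w.im ≤ 0}) (h2.mono (fun w hw => hw.1) fun w hw => ?_)
        (hr'.mono (fun w hw => hw.1) fun w hw => by nlinarith [hw.2])
        fun w hw => (le_total 0 (cos w.im)).imp (fun h => ⟨hw.1, hw.2, h⟩) fun h => ⟨hw.1, h⟩
      have b1 : 0 ≤ sin w.im := sin_nonneg_of_nonneg_of_le_pi hw.2.1 (by linarith [hw.1.2.2])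
      have b2 : sin ε * cos w.im ≤ sin (ε + w.im) := by rw [sin_add]; nlinarith
      have b3 := mul_le_mul hLB b2 (mul_nonneg hs.le hw.2.2) (by linarith)
      nlinarith [hw.2.2]
    constructor
    · refine Rate.cover (V := HS R 0 ε) k1 ?_ fun w hw =>
        (le_or_gt w.im 0).imp (fun h => ⟨hw, h⟩) fun h => ⟨hw.1, h, hw.2.2⟩
      have := (hj.sub' (HS_mono le_rfl (by linarith) le_rfl : HS R 0 ε ⊆ _)).add
        (k2.sub' (V := HS R 0 ε) fun w hw => ⟨⟨hw.1, by linarith [hw.2.1],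
          by linarith [hw.2.2]⟩, hw.2.1.le⟩)
      simpa only [sub_add_cancel] using this
    · refine Rate.cover (V := HS R (-ε) 0) k2 ?_ fun w hw =>
        (le_or_gt 0 w.im).imp (fun h => ⟨hw, h⟩) fun h => ⟨hw.1, hw.2.1, h⟩
      have := (k1.sub' (V := HS R (-ε) 0) fun w hw => ⟨⟨hw.1, by linarith [hw.2.1],
          by linarith [hw.2.2]⟩, hw.2.2.le⟩).sub
        (hj.sub' (HS_mono le_rfl le_rfl hε.le : HS R (-ε) 0 ⊆ _))
      simpa only [sub_sub_cancel] using this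

/-- **The jump at a Stokes ray is smaller than its nominal size.** -/
theorem Ray.gain (h : Ray Hp Hm R ε c L) (hε : 0 < ε) (hε2 : ε < π / 2) (hc : 0 < c)
    (hL : c < L) : ∃ c₁ ε₁, c < c₁ ∧ 0 < ε₁ ∧ ε₁ ≤ ε ∧
      Rate (HS R (-ε₁) ε₁) (fun w => Hp w - Hm w) fun _ => c₁ := by
  have hs : 0 < sin ε := sin_pos_of_pos_of_lt_pi hε (by linarith [pi_pos])
  set d := (L - c) * sin ε / 2 with hd
  have hd0 : 0 < d := by have : 0 < L - c := by linarith
                         positivity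
  obtain ⟨n, hn⟩ := exists_nat_ge (c / d)
  rw [div_le_iff₀ hd0] at hn
  set B' := max 0 (c - d / 2) with hB'
  have b0 : 0 ≤ B' := le_max_left _ _
  have b1 : B' < c := max_lt hc (by linarith)
  have b2 : c - d / 2 ≤ B' := le_max_right _ _
  obtain ⟨h1, h2⟩ := h.iter hε hε2 hc hL n ((B' + c) / 2) (by linarith) (by linarith)
    (by rw [← hd]; linarith)
  obtain ⟨h3, h4⟩ := h.step b0 (by linarith) (by linarith) h1 h2
  have v0 : c + d < (L - B') * sin ε + B' := by nlinarith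
  have e1 : ∀ᶠ y in 𝓝 (0 : ℝ), c + d < (L - B') * sin (ε - y) + B' * cos y :=
    ContinuousAt.eventually_lt continuousAt_const (by fun_prop) (by simpa using v0)
  have e2 : ∀ᶠ y in 𝓝 (0 : ℝ), c + d < (L - B') * sin (ε + y) + B' * cos y :=
    ContinuousAt.eventually_lt continuousAt_const (by fun_prop) (by simpa using v0)
  obtain ⟨δ, hδ, hδ'⟩ := Metric.eventually_nhds_iff.1 (e1.and e2)
  have hm1 := min_le_left δ ε
  have hm2 := min_le_right δ ε
  have hy : ∀ w ∈ HS R (-min δ ε) (min δ ε), dist w.im 0 < δ := fun w hw => by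
    rw [Real.dist_eq, sub_zero, abs_lt]
    exact ⟨by linarith [hw.2.1], by linarith [hw.2.2]⟩
  refine ⟨c + d, min δ ε, by linarith, lt_min hδ hε, hm2, Rate.sub ?_ ?_⟩
  · exact h3.mono (HS_mono le_rfl (by linarith) hm2) fun w hw => (hδ' (hy w hw)).1.le
  · exact h4.mono (HS_mono le_rfl (by linarith) (by linarith)) fun w hw => (hδ' (hy w hw)).2.le

end Crest.Agent.N250.St

end
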